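import Vale.Agent.P146.H615.Easm

/-!
The tested row equation for one weight `φ`, when the two linear identities are only known for this
weight (as numbers `D`, `Df`).  The term with the factor `x` is estimated by `2 EY2 + 2 DV`.
-/

open MeasureTheory

namespace Vale.Agent.P146.H585

open Vale.Agent.P146.H646 Vale.Agent.P146.H615

set_option linter.unusedSectionVars false

variable {κ : Type*} [Fintype κ] [DecidableEq κ] {μ : κ → Measure ℝ}
  [∀ e, IsProbabilityMeasure (μ e)] {w : (κ → ℝ) → ℝ} {K : Finset κ}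
  {Ω : Type*} [MeasurableSpace Ω] {I : Type*}
  {av : (Ω → ℝ) → (κ → ℝ) → ℝ} {S : Finset I} {M : I → (κ → ℝ) → ℝ} {s : I → Ω → ℝ}
  {s0 a : Ω → ℝ} {x τ v : ℝ}

/-- the quadratic term of the row is between `0` and `2 EY2 + 2 DV`. -/
lemma quad_term (hw : Wt μ w) (hA : Av av) (hs : ∀ j, Bd (s j)) (hM : ∀ j, BM (M j))
    (hs0 : Bd s0) (hs1 : ∀ ω, |s0 ω| ≤ 1) (hx0 : 0 ≤ x) (hx1 : x ≤ 1)
    {φ : (κ → ℝ) → ℝ} (hφb : BM φ) (hφ0 : ∀ z, 0 ≤ φ z) (τ v : ℝ) :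
    0 ≤ ex μ w (fun z => φ z * Pt av S M s τ v z) -
        (1 - x) * ex μ w (fun z => φ z * Rt av S M s0 s τ v z ^ 2) ∧
      ex μ w (fun z => φ z * Pt av S M s τ v z) -
        (1 - x) * ex μ w (fun z => φ z * Rt av S M s0 s τ v z ^ 2) ≤
      2 * ex μ w (fun z => φ z * Yf S M τ v z ^ 2) +
        2 * (τ ^ 2 * ex μ w (fun z => φ z * Vt av S M s z)) := by
  have bY := bm_Y (S := S) hA hs hM τ v
  have bP := bm_Pt (S := S) hA hs hM τ v
  have bV := bm_Vt (S := S) hA hs hM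
  have bR := bm_Rt (S := S) hA hs hM hs0 τ v
  have h1 : ex μ w (fun z => φ z * Rt av S M s0 s τ v z ^ 2) ≤
      ex μ w (fun z => φ z * Pt av S M s τ v z) := by
    refine ex_mono hw (hφb.mul (bsq bR)) (hφb.mul bP) fun z => ?_
    refine mul_le_mul_of_nonneg_left ?_ (hφ0 z)
    have h2 := abs_Rt_le (S := S) (M := M) hA hs hs0 hs1 τ v z
    have h3 := Pt_nonneg (S := S) (M := M) hA hs τ v z
    calc Rt av S M s0 s τ v z ^ 2 = |Rt av S M s0 s τ v z| ^ 2 := (sq_abs _).symm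
      _ ≤ √(Pt av S M s τ v z) ^ 2 := pow_le_pow_left₀ (abs_nonneg _) h2 2
      _ = _ := Real.sq_sqrt h3
  have h0 : 0 ≤ ex μ w (fun z => φ z * Rt av S M s0 s τ v z ^ 2) :=
    ex_nonneg hw fun z => mul_nonneg (hφ0 z) (sq_nonneg _)
  have h4 : ex μ w (fun z => φ z * Pt av S M s τ v z) ≤
      2 * ex μ w (fun z => φ z * Yf S M τ v z ^ 2) +
        2 * (τ ^ 2 * ex μ w (fun z => φ z * Vt av S M s z)) := by
    rw [← ex_cmul, ← ex_cmul, ← ex_cmul, ← ex_add hw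
      (bcm 2 (hφb.mul (bsq bY))) (bcm 2 (bcm _ (hφb.mul bV)))]
    refine ex_mono hw (hφb.mul bP) ((bcm 2 (hφb.mul (bsq bY))).add
      (bcm 2 (bcm _ (hφb.mul bV)))) fun z => ?_
    have := mul_le_mul_of_nonneg_left (Pt_le (S := S) (M := M) hA hs τ v z) (hφ0 z)
    linarith
  constructor
  · nlinarith [mul_nonneg hx0 h0]
  · have : 0 ≤ (1 - x) * ex μ w (fun z => φ z * Rt av S M s0 s τ v z ^ 2) :=
      mul_nonneg (by linarith) h0
    linarith

/-- **The tested row equation with the two pairings as numbers.** -/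
theorem easm_pair (hw : Wt μ w) (hA : Av av) (hs : ∀ j, Bd (s j)) (hM : ∀ j, BM (M j))
    (hs0 : Bd s0) (hs1 : ∀ ω, |s0 ω| ≤ 1) (hx0 : 0 ≤ x) (hx1 : x ≤ 1) (hτ : 0 ≤ τ) (hv : 0 ≤ v)
    {kp : ℝ} (hk : 0 ≤ kp) {φ : (κ → ℝ) → ℝ} (hφb : BM φ) (hφ0 : ∀ z, 0 ≤ φ z)
    {nN c3 EY2 DV D Df : ℝ}
    (hI : |ex μ w (fun z => φ z * ∑ j ∈ S, M j z * Th av x a s0 s j z) -
      kp * ex μ w (fun z => φ z * m2 S M z)| ≤ D)
    (hF : |ex μ w (fun z => φ z * Tf av x a s0 z) - kp * ex μ w φ| ≤ Df)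
    (hEY2 : EY2 = ex μ w (fun z => φ z * Yf S M τ v z ^ 2))
    (hDV : DV = τ ^ 2 * ex μ w (fun z => φ z * Vt av S M s z))
    (hstar : nN = 2 * kp * (τ * ex μ w (fun z => φ z * ∑ j ∈ S, M j z * Th av x a s0 s j z) +
        v * ex μ w (fun z => φ z * Tf av x a s0 z)) -
      kp ^ 2 * ex μ w (fun z => φ z * Yf S M τ v z) -
      x * kp ^ 2 * (ex μ w (fun z => φ z * Pt av S M s τ v z) -
        (1 - x) * ex μ w (fun z => φ z * Rt av S M s0 s τ v z ^ 2)) + c3) :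
    c3 ≤ nN - kp ^ 2 * ex μ w (fun z => φ z * Yf S M τ v z) + 2 * kp * (τ * D + v * Df) +
        x * kp ^ 2 * (2 * EY2 + 2 * DV) ∧
      nN ≤ kp ^ 2 * ex μ w (fun z => φ z * Yf S M τ v z) + c3 + 2 * kp * (τ * D + v * Df) := by
  obtain ⟨q1, q2⟩ := quad_term (S := S) (M := M) hw hA hs hM hs0 hs1 hx0 hx1 hφb hφ0 τ v
  rw [← hEY2, ← hDV] at q2
  have bm := bm_m2 (S := S) hA hs hM
  have e6 : ex μ w (fun z => φ z * Yf S M τ v z) =
      τ * ex μ w (fun z => φ z * m2 S M z) + v * ex μ w φ := by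
    rw [← ex_cmul, ← ex_cmul, ← ex_add hw (bcm τ (hφb.mul bm)) (bcm v hφb)]
    congr 1
    funext z
    have : Yf S M τ v z = τ * m2 S M z + v := rfl
    rw [this]; ring
  set A1 := ex μ w (fun z => φ z * ∑ j ∈ S, M j z * Th av x a s0 s j z)
  set A2 := ex μ w (fun z => φ z * Tf av x a s0 z)
  set EP := ex μ w (fun z => φ z * Pt av S M s τ v z)
  set ER := ex μ w (fun z => φ z * Rt av S M s0 s τ v z ^ 2)
  set m := ex μ w (fun z => φ z * m2 S M z)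
  have hxk : 0 ≤ x * kp ^ 2 := mul_nonneg hx0 (sq_nonneg _)
  have X1 : 0 ≤ x * kp ^ 2 * (EP - (1 - x) * ER) := mul_nonneg hxk q1
  have X2 : x * kp ^ 2 * (EP - (1 - x) * ER) ≤ x * kp ^ 2 * (2 * EY2 + 2 * DV) :=
    mul_le_mul_of_nonneg_left q2 hxk
  have h1 := abs_le.1 hI
  have h2 := abs_le.1 hF
  have g1 : |τ * (A1 - kp * m) + v * (A2 - kp * ex μ w φ)| ≤ τ * D + v * Df := by
    refine (abs_add_le _ _).trans (add_le_add ?_ ?_)
    · rw [abs_mul, abs_of_nonneg hτ]; exact mul_le_mul_of_nonneg_left hI hτ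
    · rw [abs_mul, abs_of_nonneg hv]; exact mul_le_mul_of_nonneg_left hF hv
  have g2 : |2 * kp * (τ * (A1 - kp * m) + v * (A2 - kp * ex μ w φ))| ≤
      2 * kp * (τ * D + v * Df) := by
    rw [abs_mul, abs_of_nonneg (by positivity : (0 : ℝ) ≤ 2 * kp)]
    exact mul_le_mul_of_nonneg_left g1 (by positivity)
  have g3 := abs_le.1 g2
  have e7 : nN - kp ^ 2 * ex μ w (fun z => φ z * Yf S M τ v z) =
      2 * kp * (τ * (A1 - kp * m) + v * (A2 - kp * ex μ w φ)) -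
        x * kp ^ 2 * (EP - (1 - x) * ER) + c3 := by
    rw [hstar, e6]; ring
  constructor <;> linarith [g3.1, g3.2]

end Vale.Agent.P146.H585
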