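import Vale.Agent.P146.H585.RowU
import Vale.Agent.P146.H585.Easm1
import Vale.Agent.P146.H347.ModU

/-!
The untested row inequality (`φ = 1`) in the ensemble `U`: frozen coordinates `Kset S BL FL`
(modulated revealed levels allowed), the two linear identities enter as the numbers `D`, `Df`.
-/

open MeasureTheory ProbabilityTheory Filter Topology

namespace Vale.Agent.P146.H585.U

open Vale.Agent.P157.Lv Vale.Agent.P146.H196 Vale.Agent.P146.H646 Vale.Agent.P146.H615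
  Vale.Agent.P146.H347 Vale.Agent.P146.H475 Vale.Agent.P146.H816 Vale.Agent.P146.H325
  Vale.Agent.P146.H161 Vale.Agent.P146.H281.U Vale.Agent.P146.H347.U

variable {Θ : Type} [MeasurableSpace Θ] {n : ℕ} {LB LF : Type}
variable [Fintype LB] [DecidableEq LB] [Fintype LF] [DecidableEq LF]

/-- **exchangeability at `φ = 1`**: the new site against the block. -/
theorem exch_one {w : (Co n LB LF → ℝ) → ℝ} (hw : InvP w) (hwt : Wt (g1 _) w)
    {Ψ : Fin n → (Co n LB LF → ℝ) → ℝ} (hΨ : Eq1 Ψ) (hbm : ∀ j, BM (Ψ j)) {i0 : Fin n}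
    {S : Finset (Fin n)} (hi : i0 ∉ S) (BL : Finset LB) (FL : Finset LF) :
    (S.card : ℝ) * ex (g1 _) w (fun z => cx (g1 _) (Kset (insert i0 S) BL FL) w (Ψ i0) z ^ 2) =
      ex (g1 _) w (fun z => m2 S (fun j => cx (g1 _) (Kset S BL FL) w (Ψ j)) z) +
        ∑ j ∈ S, (ex (g1 _) w (fun z => cx (g1 _) (Kset (insert i0 S) BL FL) w (Ψ j) z ^ 2) -
          ex (g1 _) w (fun z => cx (g1 _) (Kset S BL FL) w (Ψ j) z ^ 2)) := by
  have h1 : ∀ i ∈ insert i0 S, ((insert i0 S).card : ℝ) *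
      ex (g1 _) w (fun z => cx (g1 _) (Kset (insert i0 S) BL FL) w (Ψ i) z ^ 2) =
      ex (g1 _) w (fun z => ∑ j ∈ insert i0 S,
        cx (g1 _) (Kset (insert i0 S) BL FL) w (Ψ j) z ^ 2) := by
    intro i hi'
    have h2 := hΨ.exch_block (BL := BL) (FL := FL) hw hwt hbm hi' (φ := fun _ => 1)
      measurable_const (P0 := 1) (fun _ => by rw [abs_one]) 2
    simp only [one_mul] at h2
    exact h2.symm
  have hc : ((insert i0 S).card : ℝ) ≠ 0 := by
    have : (insert i0 S).card ≠ 0 := (Finset.card_pos.2 ⟨i0, Finset.mem_insert_self _ _⟩).ne'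
    exact_mod_cast this
  have h3 : ∀ j ∈ S, ex (g1 _) w (fun z => cx (g1 _) (Kset (insert i0 S) BL FL) w (Ψ j) z ^ 2) =
      ex (g1 _) w (fun z => cx (g1 _) (Kset (insert i0 S) BL FL) w (Ψ i0) z ^ 2) := by
    intro j hj
    have e1 := h1 j (Finset.mem_insert_of_mem hj)
    have e2 := h1 i0 (Finset.mem_insert_self _ _)
    exact mul_left_cancel₀ hc (e1.trans e2.symm)
  have h4 : ex (g1 _) w (fun z => m2 S (fun j => cx (g1 _) (Kset S BL FL) w (Ψ j)) z) =
      ∑ j ∈ S, ex (g1 _) w (fun z => cx (g1 _) (Kset S BL FL) w (Ψ j) z ^ 2) := by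
    unfold m2
    exact ex_sum hwt S fun j _ => bsq (hwt.bm_cx _ (hbm j))
  rw [h4, ← Finset.sum_add_distrib, Finset.card_eq_sum_ones, Nat.cast_sum, Finset.sum_mul]
  refine Finset.sum_congr rfl fun j hj => ?_
  rw [h3 j hj]
  push_cast
  ring

section inst

variable (b : ℝ) (cB : LB → ℝ) (cF cP : LF → ℝ) (a : LF → Θ → ℝ) {i0 : Fin n}
  {S : Finset (Fin n)} (BL : Finset LB) (FL : Finset LF)

/-- **The untested row inequality in the ensemble `U`**, with `D`, `Df` = errors of the two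
linear identities at `φ = 1`. -/
theorem row_one {ν : Measure Θ} (hν : IsFiniteMeasure ν) (h0 : ν ≠ 0) {η : ℝ} (hA : AmU a η)
    {x : ℝ} (hx0 : 0 ≤ x) (hx1 : x ≤ 1) (hi : i0 ∉ S) (hS : S.Nonempty)
    (hP : ∀ l ∈ FL, ∀ θ, cP l * (cF l * a l θ) = cP l ^ 2)
    {kp : ℝ} (hk : 0 ≤ kp) {τ v : ℝ}
    (hτ : τ = b ^ 2 / n * ∑ l ∈ BL, cB l ^ 2) (hv : v = ∑ l ∈ FL, cP l ^ 2)
    {w : (Co n LB LF → ℝ) → ℝ} (hw : w = Zxm (muU ν n) 1 (SU b cB cF a) x)
    {av : (Θ × Xs n → ℝ) → (Co n LB LF → ℝ) → ℝ}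
    (hav : av = avm (muU ν n) 1 (SU b cB cF a))
    {r : Θ → ℝ} (hr : Measurable r) {Cr : ℝ} (hrb : ∀ θ, |r θ| ≤ Cr)
    {M : Fin n → (Co n LB LF → ℝ) → ℝ}
    (hM : M = fun j => cx (g1 _) (Kset S BL FL) w (av fun ω => r ω.1 * sp ω.2 j))
    {N : (Co n LB LF → ℝ) → ℝ}
    (hN : N = cx (g1 _) (Kset (insert i0 S) BL FL) w (av fun ω => r ω.1 * sp ω.2 i0))
    {inc : ℝ} (hinc : inc = ∑ j ∈ S, (ex (g1 _) w (fun z =>
        cx (g1 _) (Kset (insert i0 S) BL FL) w (av fun ω => r ω.1 * sp ω.2 j) z ^ 2) -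
        ex (g1 _) w (fun z => M j z ^ 2)))
    {D Df : ℝ}
    (hI : |ex (g1 _) w (fun z => ∑ j ∈ S, M j z * Th av x (fun ω => r ω.1)
        (fun ω => sp ω.2 i0) (fun j ω => sp ω.2 j) j z) -
      kp * ex (g1 _) w (fun z => m2 S M z)| ≤ D)
    (hF : |ex (g1 _) w (fun z => Tf av x (fun ω => r ω.1) (fun ω => sp ω.2 i0) z) - kp| ≤ Df) :
    ex (g1 _) w (fun z => cx (g1 _) (Kset S BL FL) w (fun y =>
        (N y - lc (Rw i0 S BL FL) (cfr i0 b cB cP kp M z) y) ^ 2) z) ≤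
      ((ex (g1 _) w (fun z => m2 S M z) + inc) / S.card -
        kp ^ 2 * (τ * ex (g1 _) w (fun z => m2 S M z) + v)) +
      2 * kp * (τ * D + v * Df) +
      x * kp ^ 2 * (2 * ex (g1 _) w (fun z => Yf S M τ v z ^ 2) +
        2 * (τ ^ 2 * ex (g1 _) w (fun z => Vt av S M (fun j ω => sp ω.2 j) z))) := by
  have hw' : Wt (g1 (Co n LB LF)) w := by rw [hw]; exact wtU b cB cF hν h0 hA x
  have hG := gmU (n := n) b cB cF η hν h0 hA
  have hAv : Av av := by rw [hav]; exact av_avm hG 1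
  have bF : ∀ j, BM (av fun ω => r ω.1 * sp ω.2 j) := fun j => by
    rw [hav]
    exact bmU b cB cF hν h0 hA (bm_fun_sp hr hrb j)
  have bM : ∀ j, BM (M j) := fun j => by rw [hM]; exact hw'.bm_cx _ (bF j)
  have dM : ∀ j, H646.Dep (Kset S BL FL) (M j) := fun j => by rw [hM]; exact H646.dep_cx _
  have hs : ∀ j : Fin n, Bd fun ω : Θ × Xs n => sp ω.2 j := fun j => bm_spU j
  have hst := hstar_ku b cB cF cP a BL FL hν h0 hA x hi hP M bM dM kp
    (φ := fun _ => 1) (fun _ _ => rfl) (BM.const 1) hτ hv hw hav hr hrb rfl rfl rfl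
  have hτ0 : 0 ≤ τ := by
    rw [hτ]
    exact mul_nonneg (div_nonneg (sq_nonneg _) (Nat.cast_nonneg _))
      (Finset.sum_nonneg fun _ _ => sq_nonneg _)
  have hv0 : 0 ≤ v := by rw [hv]; exact Finset.sum_nonneg fun _ _ => sq_nonneg _
  have key := (easm_pair (S := S) (M := M) (s := fun j (ω : Θ × Xs n) => sp ω.2 j)
    (s0 := fun ω : Θ × Xs n => sp ω.2 i0) (a := fun ω : Θ × Xs n => r ω.1) hw' hAv hs bM
    (hs i0) (fun ω => (abs_one_sp ω.2 i0).le) hx0 hx1 hτ0 hv0 hk (φ := fun _ => 1)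
    (BM.const 1) (fun _ => zero_le_one) (D := D) (Df := Df)
    (by simpa only [one_mul] using hI)
    (by simpa only [one_mul, ex_const hw' 1, mul_one] using hF) rfl rfl hst).1
  simp only [one_mul] at key
  -- exchangeability
  have hc : (0 : ℝ) < S.card := by exact_mod_cast hS.card_pos
  have hE := exch_one (by rw [hw]; exact invP_ZU b cB cF a hν 1 x) hw'
    (Ψ := fun j => av fun ω => r ω.1 * sp ω.2 j)
    (by rw [hav]; exact eq1_spU b cB cF a hν 1 r) bF hi BL FL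
  have hE' : ex (g1 _) w (fun z => cx (g1 _) (Kset (insert i0 S) BL FL) w
      (av fun ω => r ω.1 * sp ω.2 i0) z ^ 2) =
      (ex (g1 _) w (fun z => m2 S M z) + inc) / S.card := by
    rw [eq_div_iff hc.ne', mul_comm, hE, hinc, hM]
  have eY : ex (g1 _) w (fun z => Yf S M τ v z) = τ * ex (g1 _) w (fun z => m2 S M z) + v := by
    have e : (fun z => Yf S M τ v z) = fun z => τ * m2 S M z + v := rfl
    rw [e, ex_add hw' (bcm τ (bm_m2 hAv hs bM)) (BM.const v), ex_cmul, ex_const hw' v]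
  rw [hE', eY] at key
  rw [hN]
  exact key

end inst

end Vale.Agent.P146.H585.U
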