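import Vale.Agent.P146.H585.MoLog
import Vale.Agent.P146.H498.Amp5

/-!
# P146, K6: the size of the third order term on the window

`rb_core`: the number `RB` of `hC3` is at most `n ^ (-1366 q) y ^ 3` on the window.
-/

namespace Vale.Agent.P146.H585.Num

open Vale.Agent.P146.C3Amp

set_option linter.all false

/-- the window of K6 in logarithms -/
structure W6 (q K : ℝ) (n : ℕ) (y : ℝ) : Prop where
  n0 : (0 : ℝ) < n
  y0 : 0 < y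
  L1 : 1 ≤ Real.log n
  qL : 0 < q * Real.log n
  cst : K ≤ q / 100 * Real.log n
  lo : -(1 / 6) * Real.log n + 999 * (q * Real.log n) ≤ Real.log y
  hi : Real.log y ≤ -(9999 * (q * Real.log n))

variable {q K : ℝ} {n : ℕ} {y : ℝ}

/-- the constant of `rb_core` -/
noncomputable def Crb (b : ℝ) : ℝ := 10 ^ 14 * b ^ 16

/-- the algebra of `rb_core`: all the elementary monomials are at most `τ` -/
lemma rb_alg {b η x kp wf t e e1 e2 X1 X2 X3 X4 Q3 Q4 QC DU τ : ℝ} (hb : 1 ≤ b)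
    (hη0 : 0 ≤ η) (hη1 : η ≤ 1 / 2) (he : 0 < e) (he1 : 0 < e1) (he2 : 0 < e2)
    (hkp0 : 0 ≤ kp) (hkp1 : kp ≤ 1) (hwf0 : 0 ≤ wf) (hwf1 : wf ≤ 1)
    (ht1 : t ≤ 1) (hQ30 : 0 ≤ Q3) (hQ40 : 0 ≤ Q4) (hX10 : 0 ≤ X1) (hX20 : 0 ≤ X2)
    (hX30 : 0 ≤ X3) (hX40 : 0 ≤ X4) (hQC0 : 0 ≤ QC) (τ0 : 0 < τ)
    (m1 : (1 - t) * Q3 ≤ τ) (m2 : e * Q3 ≤ τ) (m3 : 1 / e * (1 / e1 * X1) ≤ τ)
    (m4 : 1 / e * (1 / e1 * (η ^ 4 * X2)) ≤ τ) (m5 : 1 / e * (1 / e1 * X3) ≤ τ)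
    (m6 : 1 / e * (1 / e1 * wf ^ 2) ≤ τ) (m7 : 1 / e * (e1 * X4) ≤ τ)
    (m8 : 1 / e * (e1 * wf ^ 4) ≤ τ) (m9 : 1 / e * (e1 * Q4) ≤ τ)
    (m10 : 1 / e * (e2 * Q3) ≤ τ) (m11 : 1 / e * (1 / e2 * QC) ≤ τ)
    (m12 : 1 / e * (1 / e2 * (wf ^ 2 * Q3)) ≤ τ) (m13 : 1 / e * DU ≤ τ)
    (m14 : 1 / e * (x ^ 2 * X2) ≤ τ) (m15 : 1 / e * (x ^ 2 * wf ^ 2) ≤ τ) :
    RB b η x kp wf t e e1 e2 X1 X2 X3 X4 Q3 Q4 QC DU ≤ Crb b * τ := by
  have hb0 : 0 < b := by linarith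
  have h2 : (1 + η) ^ 2 ≤ 9 / 4 := by nlinarith
  have h20 : 0 ≤ (1 + η) ^ 2 := sq_nonneg _
  have h8 : (1 + η) ^ 8 ≤ 26 := by
    calc (1 + η) ^ 8 ≤ (3 / 2) ^ 8 := pow_le_pow_left₀ (by linarith) (by linarith) 8
      _ ≤ 26 := by norm_num
  have b4 : b ^ 4 ≤ b ^ 16 := pow_le_pow_right₀ hb (by norm_num)
  have b6 : b ^ 6 ≤ b ^ 16 := pow_le_pow_right₀ hb (by norm_num)
  have b8 : b ^ 8 ≤ b ^ 16 := pow_le_pow_right₀ hb (by norm_num)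
  have b10 : b ^ 10 ≤ b ^ 16 := pow_le_pow_right₀ hb (by norm_num)
  have b16 : 1 ≤ b ^ 16 := one_le_pow₀ hb
  have a1 : (3 * (1 - t) + 3 * e) * (384 * b ^ 6 * (1 + η) ^ 2 * Q3) ≤ 5184 * (b ^ 16 * τ) := by
    have e1 : (3 * (1 - t) + 3 * e) * (384 * b ^ 6 * (1 + η) ^ 2 * Q3) =
        1152 * b ^ 6 * (1 + η) ^ 2 * ((1 - t) * Q3 + e * Q3) := by ring
    rw [e1]
    calc 1152 * b ^ 6 * (1 + η) ^ 2 * ((1 - t) * Q3 + e * Q3)
        ≤ 1152 * b ^ 16 * (9 / 4) * (τ + τ) := by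
          have : 0 ≤ (1 - t) * Q3 + e * Q3 := by
            have := mul_nonneg (sub_nonneg.2 ht1) hQ30
            positivity
          gcongr
      _ = _ := by ring
  have a2 : 2232 / e * (2 * (1 + η) ^ 2 * (2352 / e1 * Bd2 b η wf X1 X2 X3)) ≤
      1700000000 * (b ^ 16 * τ) := by
    have e3 : 2232 / e * (2 * (1 + η) ^ 2 * (2352 / e1 * Bd2 b η wf X1 X2 X3)) =
        10499328 * (1 + η) ^ 2 * b ^ 4 * (4 * (1 / e * (1 / e1 * X1)) +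
          32 * (1 / e * (1 / e1 * (η ^ 4 * X2))) + 32 * (1 / e * (1 / e1 * X3)) +
          2 * (1 / e * (1 / e1 * wf ^ 2))) := by
      unfold Bd2
      field_simp
      ring
    rw [e3]
    calc 10499328 * (1 + η) ^ 2 * b ^ 4 * (4 * (1 / e * (1 / e1 * X1)) +
          32 * (1 / e * (1 / e1 * (η ^ 4 * X2))) + 32 * (1 / e * (1 / e1 * X3)) +
          2 * (1 / e * (1 / e1 * wf ^ 2)))
        ≤ 10499328 * (9 / 4) * b ^ 16 * (4 * τ + 32 * τ + 32 * τ + 2 * τ) := by gcongr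
      _ = 1653644160 * (b ^ 16 * τ) := by ring
      _ ≤ _ := by
        have := mul_pos (lt_of_lt_of_le one_pos b16) τ0
        linarith
  have a3 : 2232 / e * (2 * (1 + η) ^ 2 * (e1 * (2568576 * B4 b wf X4 + 49536 * (b ^ 8 * Q4)))) ≤
      500000000000 * (b ^ 16 * τ) := by
    have e3 : 2232 / e * (2 * (1 + η) ^ 2 * (e1 * (2568576 * B4 b wf X4 +
        49536 * (b ^ 8 * Q4)))) =
        4464 * (1 + η) ^ 2 * b ^ 8 * (20548608 * (1 / e * (e1 * X4)) +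
          20548608 * (1 / e * (e1 * wf ^ 4)) + 49536 * (1 / e * (e1 * Q4))) := by
      unfold B4
      field_simp
      ring
    rw [e3]
    calc 4464 * (1 + η) ^ 2 * b ^ 8 * (20548608 * (1 / e * (e1 * X4)) +
          20548608 * (1 / e * (e1 * wf ^ 4)) + 49536 * (1 / e * (e1 * Q4)))
        ≤ 4464 * (9 / 4) * b ^ 16 * (20548608 * τ + 20548608 * τ + 49536 * τ) := by gcongr
      _ = 413277977088 * (b ^ 16 * τ) := by ring
      _ ≤ _ := by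
        have := mul_pos (lt_of_lt_of_le one_pos b16) τ0
        linarith
  have a4 : 2232 / e * (9216 * (1 + η) ^ 2 * b ^ 6 * (e2 / 2 * Q3 + 2048 / e2 * (2 * b ^ 4 * QC +
      2 * b ^ 4 * wf ^ 2 * Q3))) ≤ 500000000000 * (b ^ 16 * τ) := by
    have e3 : 2232 / e * (9216 * (1 + η) ^ 2 * b ^ 6 * (e2 / 2 * Q3 + 2048 / e2 *
        (2 * b ^ 4 * QC + 2 * b ^ 4 * wf ^ 2 * Q3))) =
        20570112 * (1 + η) ^ 2 * (1 / 2 * b ^ 6 * (1 / e * (e2 * Q3)) +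
          4096 * b ^ 10 * (1 / e * (1 / e2 * QC)) +
          4096 * b ^ 10 * (1 / e * (1 / e2 * (wf ^ 2 * Q3)))) := by
      field_simp
      ring
    rw [e3]
    calc 20570112 * (1 + η) ^ 2 * (1 / 2 * b ^ 6 * (1 / e * (e2 * Q3)) +
          4096 * b ^ 10 * (1 / e * (1 / e2 * QC)) +
          4096 * b ^ 10 * (1 / e * (1 / e2 * (wf ^ 2 * Q3))))
        ≤ 20570112 * (9 / 4) * (1 / 2 * b ^ 16 * τ + 4096 * b ^ 16 * τ + 4096 * b ^ 16 * τ) := by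
          gcongr
      _ = 379171446  * (b ^ 16 * τ) * 1000 + (20570112 * (9 / 4) * (1 / 2 + 8192) -
          379171446000) * (b ^ 16 * τ) := by ring
      _ ≤ _ := by
        have := mul_pos (lt_of_lt_of_le one_pos b16) τ0
        linarith
  have a5 : 2232 / e * DU ≤ 2232 * (b ^ 16 * τ) := by
    have e3 : 2232 / e * DU = 2232 * (1 / e * DU) := by ring
    rw [e3]
    have : τ ≤ b ^ 16 * τ := le_mul_of_one_le_left τ0.le b16
    linarith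
  have a6 : 2232 / e * ((kp ^ 2 * (b ^ 2 * ((1 + η) ^ 2 + wf)) + 64 * b ^ 6 * (1 + η) ^ 8) *
      (17 / 2 * x ^ 2 * B2 b wf X2)) ≤ 200000000 * (b ^ 16 * τ) := by
    have e3 : 2232 / e * ((kp ^ 2 * (b ^ 2 * ((1 + η) ^ 2 + wf)) + 64 * b ^ 6 * (1 + η) ^ 8) *
        (17 / 2 * x ^ 2 * B2 b wf X2)) =
        37944 * b ^ 4 * (kp ^ 2 * (b ^ 2 * ((1 + η) ^ 2 + wf)) + 64 * b ^ 6 * (1 + η) ^ 8) *
          (1 / e * (x ^ 2 * X2) + 1 / e * (x ^ 2 * wf ^ 2)) := by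
      unfold B2
      field_simp
      ring
    rw [e3]
    have k2 : kp ^ 2 ≤ 1 := pow_le_one₀ hkp0 hkp1
    have b26 : b ^ 2 ≤ b ^ 6 := pow_le_pow_right₀ hb (by norm_num)
    have k3 : kp ^ 2 * (b ^ 2 * ((1 + η) ^ 2 + wf)) + 64 * b ^ 6 * (1 + η) ^ 8 ≤
        1668 * b ^ 6 := by
      calc kp ^ 2 * (b ^ 2 * ((1 + η) ^ 2 + wf)) + 64 * b ^ 6 * (1 + η) ^ 8
          ≤ 1 * (b ^ 6 * (9 / 4 + 1)) + 64 * b ^ 6 * 26 := by gcongr
        _ ≤ _ := by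
          have := pow_pos hb0 6
          linarith
    calc 37944 * b ^ 4 * (kp ^ 2 * (b ^ 2 * ((1 + η) ^ 2 + wf)) + 64 * b ^ 6 * (1 + η) ^ 8) *
          (1 / e * (x ^ 2 * X2) + 1 / e * (x ^ 2 * wf ^ 2))
        ≤ 37944 * b ^ 4 * (1668 * b ^ 6) * (τ + τ) := by gcongr
      _ = 126581184 * (b ^ 10 * τ) := by ring
      _ ≤ 126581184 * (b ^ 16 * τ) := by gcongr
      _ ≤ _ := by
        have := mul_pos (lt_of_lt_of_le one_pos b16) τ0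
        linarith
  have e : RB b η x kp wf t e e1 e2 X1 X2 X3 X4 Q3 Q4 QC DU =
      (3 * (1 - t) + 3 * e) * (384 * b ^ 6 * (1 + η) ^ 2 * Q3) +
      2232 / e * (2 * (1 + η) ^ 2 * (2352 / e1 * Bd2 b η wf X1 X2 X3)) +
      2232 / e * (2 * (1 + η) ^ 2 * (e1 * (2568576 * B4 b wf X4 + 49536 * (b ^ 8 * Q4)))) +
      2232 / e * (9216 * (1 + η) ^ 2 * b ^ 6 * (e2 / 2 * Q3 + 2048 / e2 * (2 * b ^ 4 * QC +
        2 * b ^ 4 * wf ^ 2 * Q3))) + 2232 / e * DU +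
      2232 / e * ((kp ^ 2 * (b ^ 2 * ((1 + η) ^ 2 + wf)) + 64 * b ^ 6 * (1 + η) ^ 8) *
        (17 / 2 * x ^ 2 * B2 b wf X2)) := by
    unfold RB
    ring
  rw [e]
  unfold Crb
  have := mul_pos (lt_of_lt_of_le one_pos b16) τ0
  have e5 : (10 : ℝ) ^ 14 * b ^ 16 * τ = 100000000000000 * (b ^ 16 * τ) := by ring
  rw [e5]
  linarith

/-- **The size of `RB`** on the window. -/
theorem rb_core (h : W6 q K n y) {b η x kp wf t X1 X2 X3 X4 Q3 Q4 QC DU : ℝ} (hb : 1 ≤ b)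
    (hK : Real.log (Crb b) ≤ K) (hη0 : 0 ≤ η) (hη1 : η ≤ 1 / 2)
    (hη : η ≤ Mo q n y (-2000) 0 0) (hx0 : 0 ≤ x) (hx : x ≤ Mo q n y 0 0 1)
    (hkp0 : 0 ≤ kp) (hkp1 : kp ≤ 1) (hwf0 : 0 ≤ wf) (hwf : wf ≤ Mo q n y (-23) 0 3)
    (ht1 : t ≤ 1) (ht : 1 - t ≤ Mo q n y (-60) 0 2)
    (hX10 : 0 ≤ X1) (hX1 : X1 ≤ Mo q n y (-5852) 0 2)
    (hX20 : 0 ≤ X2) (hX2 : X2 ≤ Mo q n y 75 0 2)
    (hX30 : 0 ≤ X3) (hX3 : X3 ≤ Mo q n y 190 (-1) 0)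
    (hX40 : 0 ≤ X4) (hX4 : X4 ≤ Mo q n y (741 / 5) 0 4)
    (hQ30 : 0 ≤ Q3) (hQ3 : Q3 ≤ Mo q n y (1111 / 10) 0 3)
    (hQ40 : 0 ≤ Q4) (hQ4 : Q4 ≤ Mo q n y (741 / 5) 0 4)
    (hQC0 : 0 ≤ QC) (hQC : QC ≤ Mo q n y 186 0 5)
    (hDU0 : 0 ≤ DU) (hDU : DU ≤ Mo q n y (-3000) 0 3) :
    RB b η x kp wf t (Mo q n y (-1483) 0 0) (Mo q n y (-2999) 0 (-1)) (Mo q n y (-2962) 0 0)
      X1 X2 X3 X4 Q3 Q4 QC DU ≤ Mo q n y (-1366) 0 3 := by
  obtain ⟨n0, y0, L1, qL, cst, lo, hi⟩ := h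
  have hb0 : 0 < b := by linarith
  have bC : Crb b ≤ Mo q n y (1 / 100) 0 0 := const_le (by unfold Crb; positivity) hK cst
  have P : ∀ a c d : ℝ, 0 < Mo q n y a c d := Mo_pos
  have hη2 : (1 + η) ^ 2 ≤ 9 / 4 := by nlinarith
  have hη8 : (1 + η) ^ 8 ≤ 26 := by
    calc (1 + η) ^ 8 ≤ (3 / 2) ^ 8 := pow_le_pow_left₀ (by linarith) (by linarith) 8
      _ ≤ 26 := by norm_num
  obtain ⟨τ, hτ⟩ : ∃ τ, τ = Mo q n y (-1367) 0 3 := ⟨_, rfl⟩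
  have τ0 : 0 < τ := by rw [hτ]; exact P _ _ _
  -- reciprocals
  have i0 : 1 / Mo q n y (-1483) 0 0 = Mo q n y 1483 0 0 := by
    rw [one_div, Mo_inv]
    congr 1 <;> norm_num
  have i1 : 1 / Mo q n y (-2999) 0 (-1) = Mo q n y 2999 0 1 := by
    rw [one_div, Mo_inv]
    congr 1 <;> norm_num
  have i2 : 1 / Mo q n y (-2962) 0 0 = Mo q n y 2962 0 0 := by
    rw [one_div, Mo_inv]
    congr 1 <;> norm_num
  -- the elementary monomials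
  have m1 : (1 - t) * Q3 ≤ τ := by
    have h1 : (1 - t) * Q3 ≤ Mo q n y (-60) 0 2 * Mo q n y (1111 / 10) 0 3 :=
      mul_le_mul ht hQ3 hQ30 (P _ _ _).le
    refine h1.trans ?_
    rw [hτ]
    simp only [Mo_mul, Mo_pow]
    refine Mo_le ?_
    push_cast
    linarith
  have m2 : Mo q n y (-1483) 0 0 * Q3 ≤ τ := by
    refine (mul_le_mul_of_nonneg_left hQ3 (P _ _ _).le).trans ?_
    rw [hτ]
    simp only [Mo_mul, Mo_pow]
    refine Mo_le ?_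
    push_cast
    linarith
  have m3 : Mo q n y 1483 0 0 * (Mo q n y 2999 0 1 * X1) ≤ τ := by
    refine (mul_le_mul_of_nonneg_left (mul_le_mul_of_nonneg_left hX1 (P _ _ _).le)
      (P _ _ _).le).trans ?_
    rw [hτ]
    simp only [Mo_mul, Mo_pow]
    refine Mo_le ?_
    push_cast
    linarith
  have m4 : Mo q n y 1483 0 0 * (Mo q n y 2999 0 1 * (η ^ 4 * X2)) ≤ τ := by
    have h1 : η ^ 4 * X2 ≤ Mo q n y (-2000) 0 0 ^ 4 * Mo q n y 75 0 2 :=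
      mul_le_mul (pow_le_pow_left₀ hη0 hη 4) hX2 hX20 (pow_pos (P _ _ _) 4).le
    refine (mul_le_mul_of_nonneg_left (mul_le_mul_of_nonneg_left h1 (P _ _ _).le)
      (P _ _ _).le).trans ?_
    rw [hτ]
    simp only [Mo_mul, Mo_pow]
    refine Mo_le ?_
    push_cast
    linarith
  have m5 : Mo q n y 1483 0 0 * (Mo q n y 2999 0 1 * X3) ≤ τ := by
    refine (mul_le_mul_of_nonneg_left (mul_le_mul_of_nonneg_left hX3 (P _ _ _).le)
      (P _ _ _).le).trans ?_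
    rw [hτ]
    simp only [Mo_mul, Mo_pow]
    refine Mo_le ?_
    push_cast
    linarith
  have m6 : Mo q n y 1483 0 0 * (Mo q n y 2999 0 1 * wf ^ 2) ≤ τ := by
    refine (mul_le_mul_of_nonneg_left (mul_le_mul_of_nonneg_left
      (pow_le_pow_left₀ hwf0 hwf 2) (P _ _ _).le) (P _ _ _).le).trans ?_
    rw [hτ]
    simp only [Mo_mul, Mo_pow]
    refine Mo_le ?_
    push_cast
    linarith
  have m7 : Mo q n y 1483 0 0 * (Mo q n y (-2999) 0 (-1) * X4) ≤ τ := by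
    refine (mul_le_mul_of_nonneg_left (mul_le_mul_of_nonneg_left hX4 (P _ _ _).le)
      (P _ _ _).le).trans ?_
    rw [hτ]
    simp only [Mo_mul, Mo_pow]
    refine Mo_le ?_
    push_cast
    linarith
  have m8 : Mo q n y 1483 0 0 * (Mo q n y (-2999) 0 (-1) * wf ^ 4) ≤ τ := by
    refine (mul_le_mul_of_nonneg_left (mul_le_mul_of_nonneg_left
      (pow_le_pow_left₀ hwf0 hwf 4) (P _ _ _).le) (P _ _ _).le).trans ?_
    rw [hτ]
    simp only [Mo_mul, Mo_pow]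
    refine Mo_le ?_
    push_cast
    linarith
  have m9 : Mo q n y 1483 0 0 * (Mo q n y (-2999) 0 (-1) * Q4) ≤ τ := by
    refine (mul_le_mul_of_nonneg_left (mul_le_mul_of_nonneg_left hQ4 (P _ _ _).le)
      (P _ _ _).le).trans ?_
    rw [hτ]
    simp only [Mo_mul, Mo_pow]
    refine Mo_le ?_
    push_cast
    linarith
  have m10 : Mo q n y 1483 0 0 * (Mo q n y (-2962) 0 0 * Q3) ≤ τ := by
    refine (mul_le_mul_of_nonneg_left (mul_le_mul_of_nonneg_left hQ3 (P _ _ _).le)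
      (P _ _ _).le).trans ?_
    rw [hτ]
    simp only [Mo_mul, Mo_pow]
    refine Mo_le ?_
    push_cast
    linarith
  have m11 : Mo q n y 1483 0 0 * (Mo q n y 2962 0 0 * QC) ≤ τ := by
    refine (mul_le_mul_of_nonneg_left (mul_le_mul_of_nonneg_left hQC (P _ _ _).le)
      (P _ _ _).le).trans ?_
    rw [hτ]
    simp only [Mo_mul, Mo_pow]
    refine Mo_le ?_
    push_cast
    linarith
  have m12 : Mo q n y 1483 0 0 * (Mo q n y 2962 0 0 * (wf ^ 2 * Q3)) ≤ τ := by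
    have h1 : wf ^ 2 * Q3 ≤ Mo q n y (-23) 0 3 ^ 2 * Mo q n y (1111 / 10) 0 3 :=
      mul_le_mul (pow_le_pow_left₀ hwf0 hwf 2) hQ3 hQ30 (pow_pos (P _ _ _) 2).le
    refine (mul_le_mul_of_nonneg_left (mul_le_mul_of_nonneg_left h1 (P _ _ _).le)
      (P _ _ _).le).trans ?_
    rw [hτ]
    simp only [Mo_mul, Mo_pow]
    refine Mo_le ?_
    push_cast
    linarith
  have m13 : Mo q n y 1483 0 0 * DU ≤ τ := by
    refine (mul_le_mul_of_nonneg_left hDU (P _ _ _).le).trans ?_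
    rw [hτ]
    simp only [Mo_mul, Mo_pow]
    refine Mo_le ?_
    push_cast
    linarith
  have m14 : Mo q n y 1483 0 0 * (x ^ 2 * X2) ≤ τ := by
    have h1 : x ^ 2 * X2 ≤ Mo q n y 0 0 1 ^ 2 * Mo q n y 75 0 2 :=
      mul_le_mul (pow_le_pow_left₀ hx0 hx 2) hX2 hX20 (pow_pos (P _ _ _) 2).le
    refine (mul_le_mul_of_nonneg_left h1 (P _ _ _).le).trans ?_
    rw [hτ]
    simp only [Mo_mul, Mo_pow]
    refine Mo_le ?_
    push_cast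
    linarith
  have m15 : Mo q n y 1483 0 0 * (x ^ 2 * wf ^ 2) ≤ τ := by
    have h1 : x ^ 2 * wf ^ 2 ≤ Mo q n y 0 0 1 ^ 2 * Mo q n y (-23) 0 3 ^ 2 :=
      mul_le_mul (pow_le_pow_left₀ hx0 hx 2) (pow_le_pow_left₀ hwf0 hwf 2) (sq_nonneg _)
        (pow_pos (P _ _ _) 2).le
    refine (mul_le_mul_of_nonneg_left h1 (P _ _ _).le).trans ?_
    rw [hτ]
    simp only [Mo_mul, Mo_pow]
    refine Mo_le ?_
    push_cast
    linarith
  have hwf1 : wf ≤ 1 := by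
    refine hwf.trans ?_
    unfold Mo
    rw [Real.exp_le_one_iff]
    linarith
  have key := rb_alg (b := b) (η := η) (x := x) (kp := kp) (wf := wf) (t := t)
    (e := Mo q n y (-1483) 0 0) (e1 := Mo q n y (-2999) 0 (-1)) (e2 := Mo q n y (-2962) 0 0)
    (X1 := X1) (X2 := X2) (X3 := X3) (X4 := X4) (Q3 := Q3) (Q4 := Q4) (QC := QC) (DU := DU)
    (τ := τ) hb hη0 hη1 (P _ _ _) (P _ _ _) (P _ _ _) hkp0 hkp1 hwf0 hwf1 ht1 hQ30 hQ40 hX10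
    hX20 hX30 hX40 hQC0 τ0 m1 m2 (by rw [i0, i1]; exact m3) (by rw [i0, i1]; exact m4)
    (by rw [i0, i1]; exact m5) (by rw [i0, i1]; exact m6) (by rw [i0]; exact m7)
    (by rw [i0]; exact m8) (by rw [i0]; exact m9) (by rw [i0]; exact m10)
    (by rw [i0, i2]; exact m11) (by rw [i0, i2]; exact m12) (by rw [i0]; exact m13)
    (by rw [i0]; exact m14) (by rw [i0]; exact m15)
  refine key.trans ((mul_le_mul_of_nonneg_right bC τ0.le).trans ?_)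
  rw [hτ]
  simp only [Mo_mul, Mo_pow]
  refine Mo_le ?_
  push_cast
  linarith

end Vale.Agent.P146.H585.Num
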