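import Vale.Agent.P146.H585.NeGen
import Vale.Agent.P146.H585.HU
import Vale.Agent.P146.H646.DU
import Vale.Agent.P146.H355.K3AllU

/-!
The near end inequality in the ensemble `U`: frozen coordinates `Kset S BL FL`, plain and modulated
levels revealed, one plain level hidden.
-/

open MeasureTheory ProbabilityTheory Filter Topology

namespace Vale.Agent.P146.H585

open Vale.Agent.P157.Lv Vale.Agent.P146.H196 Vale.Agent.P146.H646 Vale.Agent.P146.H161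
  Vale.Agent.P146.H615 Vale.Agent.P146.H586 Vale.Agent.P146.H463

set_option linter.unusedSectionVars false

section gen

variable {ι : Type} [Fintype ι] [DecidableEq ι] {J : Type} [Fintype J] [DecidableEq J]
  {Ω : Type} [MeasurableSpace Ω]
  {m : Measure Ω} {E : ι → Ω → ℝ} {M0 : ℝ} {σ : J → Ω → ℝ} {a : Ω → ℝ} {τ v η : ℝ}

/-- the mean of the variance of the direction -/
lemma exVt_le (hG : GM m E M0) (hη : 0 ≤ η) (hη1 : η ≤ 1 / 2) (hτ : 0 ≤ τ) (hv : 0 ≤ v) (x : ℝ)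
    (K : Finset ι) (ha : Bd a) (hs : ∀ j, Bd (σ j)) (haη : ∀ ω, |a ω - 1| ≤ η)
    (S : Finset J) :
    τ ^ 2 * ex (gg ι) (Zxm m 1 E x) (Vt (avm m 1 E) S (Mg m E x K a σ) σ) ≤
      3 / 2 * (τ * (√(ex (gg ι) (Zxm m 1 E x) (RKg m E x K σ S)) *
        √(ex (gg ι) (Zxm m 1 E x) (fun z => Yf S (Mg m E x K a σ) τ v z ^ 2)))) +
      4 * η ^ 2 * ex (gg ι) (Zxm m 1 E x) (fun z => Yf S (Mg m E x K a σ) τ v z ^ 2) := by
  set w := Zxm m 1 E x with hwd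
  have hw : Wt (gg ι) w := hG.wt 1 x
  have hAv := av_gm hG 1
  set M := Mg m E x K a σ with hMdef
  have hM : ∀ j, BM (M j) := bm_Mg hG x K ha hs
  set Y := Yf S M τ v with hYdef
  have bY : BM Y := bm_Y (S := S) hAv hs hM τ v
  have bV : BM (Vt (avm m 1 E) S M σ) := bm_Vt (S := S) hAv hs hM
  have bR : BM (RKg m E x K σ S) := bm_RKg hG x K hs S
  have bRs : BM fun z => √(RKg m E x K σ S z) := bm_sqrt bR
  have e1 : ex (gg ι) w (Vt (avm m 1 E) S M σ) =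
      ex (gg ι) w (cx (gg ι) K w (Vt (avm m 1 E) S M σ)) := (ex_cx' hw bV (K := K)).symm
  rw [e1, ← ex_cmul]
  have h1 : ex (gg ι) w (fun z => τ ^ 2 * cx (gg ι) K w (Vt (avm m 1 E) S M σ) z) ≤
      ex (gg ι) w (fun z => 3 / 2 * τ * (√(RKg m E x K σ S z) * Y z) +
        4 * η ^ 2 * Y z ^ 2) := by
    refine ex_mono hw (bcm _ (hw.bm_cx K bV)) ((bcm _ (bRs.mul bY)).add (bcm _ (bsq bY)))
      fun z => (hdl_of hG hη hη1 hτ hv x K ha hs haη S z).trans (le_of_eq ?_)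
    ring
  refine h1.trans ?_
  rw [ex_add hw (bcm _ (bRs.mul bY)) (bcm _ (bsq bY)), ex_cmul, ex_cmul]
  have h2 := (le_abs_self _).trans (abs_ex_mul_le hw bRs bY)
  have e2 : (fun z => √(RKg m E x K σ S z) ^ 2) = RKg m E x K σ S := by
    funext z
    exact Real.sq_sqrt (RKg_nonneg z S)
  rw [e2] at h2
  have h3 := mul_le_mul_of_nonneg_left h2 (show 0 ≤ 3 / 2 * τ by positivity)
  linarith

end gen

namespace U

open Vale.Agent.P146.H475 Vale.Agent.P146.H816 Vale.Agent.P146.H325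
  Vale.Agent.P146.H347 Vale.Agent.P146.H347.U Vale.Agent.P146.H281.U

section def1

variable {Θ : Type} [MeasurableSpace Θ] (n : ℕ) {LB LF : Type} [Fintype LB] [DecidableEq LB]
  [Fintype LF] [DecidableEq LF] (ν : Measure Θ) (b : ℝ) (cB : LB → ℝ) (cF : LF → ℝ)
  (a : LF → Θ → ℝ) (x : ℝ)

/-- the sum over `S` of the mean squares of the conditional means of `r s_j` -/
noncomputable def QsU (K : Finset (Co n LB LF)) (r : Θ → ℝ) (S : Finset (Fin n)) : ℝ :=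
  exU n ν b cB cF a x (fun z => m2 S (fun j => MU n ν b cB cF a x K r j) z)

/-- the mean square of `Y` -/
noncomputable def Y2U (K : Finset (Co n LB LF)) (r : Θ → ℝ) (S : Finset (Fin n))
    (τ v : ℝ) : ℝ :=
  exU n ν b cB cF a x (fun z => Yf S (fun j => MU n ν b cB cF a x K r j) τ v z ^ 2)

/-- the rank defect -/
noncomputable def rkU (K : Finset (Co n LB LF)) (S : Finset (Fin n)) : ℝ :=
  exU n ν b cB cF a x
    (RKg (muU ν n) (SU b cB cF a) x K (fun (j : Fin n) w => sp w.2 j) S)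

/-- the four point number -/
noncomputable def q4U (K : Finset (Co n LB LF)) (S : Finset (Fin n)) : ℝ :=
  exU n ν b cB cF a x
    (Q4g (muU ν n) (SU b cB cF a) x K (fun (j : Fin n) w => sp w.2 j) S)

/-- the increment of the sum over `S` from `K` to `K'` -/
noncomputable def icU (K K' : Finset (Co n LB LF)) (r : Θ → ℝ) (S : Finset (Fin n)) : ℝ :=
  ∑ j ∈ S, (exU n ν b cB cF a x (fun z => MU n ν b cB cF a x K' r j z ^ 2) -
    exU n ν b cB cF a x (fun z => MU n ν b cB cF a x K r j z ^ 2))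

/-- the bad event of the fourth cumulant -/
noncomputable def pbU (K : Finset (Co n LB LF)) (c : ℝ) (i : Fin n) : ℝ :=
  exU n ν b cB cF a x (fun z => if -c / 2 < H355.kapU ν n b cB cF a x K i z then 1 else 0)

end def1

/-- the error of the row equation at `φ = 1`: `q = Σ ex M_j^2`, `h2 = ex Y^2`. -/
noncomputable def C3n (kp τ v x η s q inc h2 rk D Df : ℝ) : ℝ :=
  ((q + inc) / s - kp ^ 2 * (τ * q + v)) + 2 * kp * (τ * D + v * Df) +
    x * kp ^ 2 * (2 * h2 + 2 * (3 / 2 * (τ * (√rk * √h2)) + 4 * η ^ 2 * h2))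

/-- the right side of the near end inequality -/
noncomputable def neR (C3 kp τ x η b0 h2 rk G : ℝ) : ℝ :=
  160 * C3 + 784 * 155446 * ((3 / 2 * (τ * √rk) + 4 * η ^ 2 * √h2) * G) +
    (44 * (48 * η + 28 * x) ^ 2 + 1696 * (kp ^ 2 * (x * (48 * b0 ^ 2 + 6)) ^ 2)) * (√h2 * G)

variable {Θ : Type} [MeasurableSpace Θ] {n : ℕ} {LB LF : Type} [Fintype LB]
  [DecidableEq LB] [Fintype LF] [DecidableEq LF]

/-- **The near end inequality in `U`**, any amplitude `r`, the two linear identities as the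
numbers `D`, `Df`. -/
theorem ne_U0 {ν : Measure Θ} (hν : IsFiniteMeasure ν) (h0 : ν ≠ 0) (b : ℝ) (cB : LB → ℝ)
    (cF cP : LF → ℝ) {a : LF → Θ → ℝ} {η : ℝ} (hA : AmU a η) (hη1 : η ≤ 1 / 2)
    {x : ℝ} (hx0 : 0 ≤ x) (hx1 : x ≤ 1) {S : Finset (Fin n)} (hS : S.Nonempty) {i0 : Fin n}
    (hi : i0 ∉ S) (BL : Finset LB) (FL : Finset LF)
    (hP : ∀ l ∈ FL, ∀ θ, cP l * (cF l * a l θ) = cP l ^ 2)
    {r : Θ → ℝ} (hr : Measurable r) (hrη : ∀ θ, |r θ - 1| ≤ η)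
    {kp : ℝ} (hk : 0 < kp) {b0 : ℝ} (hb0 : 0 ≤ b0) (hxb : x * b0 ≤ 1 / 4)
    (hb : b ^ 2 * (∑ l ∈ BL, cB l ^ 2) + (1 + η) ^ 2 * ∑ l ∈ FL, cF l ^ 2 ≤ b0 ^ 2)
    {τ v : ℝ} (hτ : τ = b ^ 2 / n * ∑ l ∈ BL, cB l ^ 2) (hv : v = ∑ l ∈ FL, cP l ^ 2)
    {D Df : ℝ}
    (hI : |exU n ν b cB cF a x (fun z => ∑ j ∈ S, MU n ν b cB cF a x (Kset S BL FL) r j z *
        Th (avU n ν b cB cF a) x (fun ω => r ω.1)
        (fun ω => sp ω.2 i0) (fun j ω => sp ω.2 j) j z) -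
      kp * QsU n ν b cB cF a x (Kset S BL FL) r S| ≤ D)
    (hF : |exU n ν b cB cF a x (fun z => Tf (avU n ν b cB cF a) x (fun ω => r ω.1)
      (fun ω => sp ω.2 i0) z) - kp| ≤ Df)
    {c pb G A : ℝ} (hc0 : 0 ≤ c) (hpb : pbU n ν b cB cF a x (Kset S BL FL) c i0 ≤ pb)
    (hG0 : 0 ≤ G)
    (hG4 : 2 * τ ^ 4 * q4U n ν b cB cF a x (Kset S BL FL) S + 2 * v ^ 4 ≤ G ^ 2)
    (hA0 : 0 ≤ A)
    (hA' : A ≤ Y2U n ν b cB cF a x (Kset S BL FL) r S τ v - 11 * G * √pb) :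
    c ^ 2 / 4 * (A * √A) ≤
      neR (C3n kp τ v x η S.card (QsU n ν b cB cF a x (Kset S BL FL) r S)
        (icU n ν b cB cF a x (Kset S BL FL) (Kset (insert i0 S) BL FL) r S)
        (Y2U n ν b cB cF a x (Kset S BL FL) r S τ v)
        (rkU n ν b cB cF a x (Kset S BL FL) S) D Df) kp τ x η b0
        (Y2U n ν b cB cF a x (Kset S BL FL) r S τ v)
        (rkU n ν b cB cF a x (Kset S BL FL) S) G := by
  have hη := hA.nn
  have hG := gmU (n := n) b cB cF η hν h0 hA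
  have hra : ∀ θ, |r θ| ≤ 1 + η := fun θ => by
    have h1 := abs_le.1 (hrη θ)
    rw [abs_le]; constructor <;> linarith [h1.1, h1.2]
  have hs : ∀ j : Fin n, Bd fun ω : Θ × Xs n => sp ω.2 j := fun j => bm_spU j
  have hrb : Bd fun ω : Θ × Xs n => r ω.1 := ⟨hr.comp measurable_fst, 1 + η, by linarith,
    fun ω => hra ω.1⟩
  have hs1 : ∀ ω : Θ × Xs n, (fun ω : Θ × Xs n => sp ω.2 i0) ω ^ 2 = 1 := fun ω => by
    show sp ω.2 i0 ^ 2 = 1
    rw [sq]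
    exact sp_mul_self ω.2 i0
  have hτ0 : 0 ≤ τ := by
    rw [hτ]
    exact mul_nonneg (div_nonneg (sq_nonneg _) (Nat.cast_nonneg _))
      (Finset.sum_nonneg fun _ _ => sq_nonneg _)
  have hv0 : 0 ≤ v := by rw [hv]; exact Finset.sum_nonneg fun _ _ => sq_nonneg _
  have hR : Rw i0 S BL FL ⊆ Kset (insert i0 S) BL FL := by
    rw [← Rw_union hi]
    exact Finset.subset_union_right
  have hKK : Kset S BL FL ⊆ Kset (LB := LB) (LF := LF) (insert i0 S) BL FL :=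
    Kset_mono (Finset.subset_insert i0 S) (Finset.Subset.refl _) (Finset.Subset.refl _)
  set M : Fin n → (Co n LB LF → ℝ) → ℝ := fun j =>
    cx (g1 _) (Kset S BL FL) (Zxm (muU ν n) 1 (SU b cB cF a) x)
      (avm (muU ν n) 1 (SU b cB cF a) fun ω => r ω.1 * sp ω.2 j) with hM
  have hVt := exVt_le (J := Fin n) (σ := fun (j : Fin n) (w : Θ × Xs n) => sp w.2 j)
    (a := fun ω : Θ × Xs n => r ω.1) (τ := τ) (v := v) hG hη hη1 hτ0 hv0 x (Kset S BL FL)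
    hrb hs (fun ω => hrη ω.1) S
  have hrow := row_one b cB cF cP a BL FL hν h0 hA hx0 hx1 hi hS hP hk.le hτ hv
    (w := Zxm (muU ν n) 1 (SU b cB cF a) x) rfl
    (av := avm (muU ν n) 1 (SU b cB cF a)) rfl hr hra (M := M) rfl
    (N := cx (g1 _) (Kset (insert i0 S) BL FL) (Zxm (muU ν n) 1 (SU b cB cF a) x)
      (avm (muU ν n) 1 (SU b cB cF a) fun ω => r ω.1 * sp ω.2 i0)) rfl rfl hI hF
  have hC3 : ex (g1 _) (Zxm (muU ν n) 1 (SU b cB cF a) x) (fun z =>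
      cx (g1 _) (Kset S BL FL) (Zxm (muU ν n) 1 (SU b cB cF a) x) (fun y =>
        (cx (g1 _) (Kset (insert i0 S) BL FL) (Zxm (muU ν n) 1 (SU b cB cF a) x)
          (avm (muU ν n) 1 (SU b cB cF a) fun ω => r ω.1 * sp ω.2 i0) y -
          lc (Rw i0 S BL FL) (cfr i0 b cB cP kp M z) y) ^ 2) z) ≤
      C3n kp τ v x η S.card (QsU n ν b cB cF a x (Kset S BL FL) r S)
        (icU n ν b cB cF a x (Kset S BL FL) (Kset (insert i0 S) BL FL) r S)
        (Y2U n ν b cB cF a x (Kset S BL FL) r S τ v)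
        (rkU n ν b cB cF a x (Kset S BL FL) S) D Df := by
    refine hrow.trans ?_
    unfold C3n
    have h2 : x * kp ^ 2 * (2 * ex (g1 _) (Zxm (muU ν n) 1 (SU b cB cF a) x)
          (fun z => Yf S M τ v z ^ 2) +
        2 * (τ ^ 2 * ex (g1 _) (Zxm (muU ν n) 1 (SU b cB cF a) x) (fun z =>
          Vt (avm (muU ν n) 1 (SU b cB cF a)) S M (fun j ω => sp ω.2 j) z))) ≤
        x * kp ^ 2 * (2 * Y2U n ν b cB cF a x (Kset S BL FL) r S τ v +
          2 * (3 / 2 * (τ * (√(rkU n ν b cB cF a x (Kset S BL FL) S) *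
            √(Y2U n ν b cB cF a x (Kset S BL FL) r S τ v))) +
            4 * η ^ 2 * Y2U n ν b cB cF a x (Kset S BL FL) r S τ v)) := by
      refine mul_le_mul_of_nonneg_left ?_ (by positivity)
      have h3 : τ ^ 2 * ex (g1 _) (Zxm (muU ν n) 1 (SU b cB cF a) x) (fun z =>
          Vt (avm (muU ν n) 1 (SU b cB cF a)) S M (fun j ω => sp ω.2 j) z) ≤
          3 / 2 * (τ * (√(rkU n ν b cB cF a x (Kset S BL FL) S) *
            √(Y2U n ν b cB cF a x (Kset S BL FL) r S τ v))) +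
            4 * η ^ 2 * Y2U n ν b cB cF a x (Kset S BL FL) r S τ v := hVt
      have h4 : ex (g1 _) (Zxm (muU ν n) 1 (SU b cB cF a) x) (fun z => Yf S M τ v z ^ 2) =
        Y2U n ν b cB cF a x (Kset S BL FL) r S τ v := rfl
      rw [h4]
      linarith
    have h5 : (ex (g1 _) (Zxm (muU ν n) 1 (SU b cB cF a) x) (fun z => m2 S M z)) =
        QsU n ν b cB cF a x (Kset S BL FL) r S := rfl
    have h6 : (∑ j ∈ S, (ex (g1 _) (Zxm (muU ν n) 1 (SU b cB cF a) x) (fun z =>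
        cx (g1 _) (Kset (insert i0 S) BL FL) (Zxm (muU ν n) 1 (SU b cB cF a) x)
          (avm (muU ν n) 1 (SU b cB cF a) fun ω => r ω.1 * sp ω.2 j) z ^ 2) -
        ex (g1 _) (Zxm (muU ν n) 1 (SU b cB cF a) x) (fun z => M j z ^ 2))) =
        icU n ν b cB cF a x (Kset S BL FL) (Kset (insert i0 S) BL FL) r S := rfl
    rw [h5, h6]
    linarith
  exact ne_gen (J := Fin n) (σ := fun (j : Fin n) (w : Θ × Xs n) => sp w.2 j)
    (s0 := fun ω : Θ × Xs n => sp ω.2 i0) (a := fun ω : Θ × Xs n => r ω.1) hG hx0 hx1 hη hη1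
    hb0 hxb hk hτ0 hv0 (Rw_disj hi) hKK hR hs (hs i0) hs1 hrb (fun ω => hrη ω.1)
    (cfr i0 b cB cP kp M)
    (fun z ω => by
      rw [hτ, hv]
      exact ys_cfrU b cB cF cP a BL FL hi hP kp M z ω)
    (fun z => by
      rw [hτ, hv]
      exact sq_cfr b cB cP BL FL hi kp M z)
    (fun ω => (sum_Rw_SUsq_le b cB cF hA hi BL FL ω).trans hb)
    hC3 hc0 hpb hG0 hG4 le_rfl hA0 hA'

variable {Gt : Type} [Fintype Gt] [DecidableEq Gt]

/-- **The near end inequality in `U`**, the amplitude of the variable `g0`, all inputs explicit: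
revealed modulated levels, one hidden plain level `l0`. -/
theorem ne_U {lam c : Gt → ℝ} (h : ∀ g, 0 < lam g) (b : ℝ) (cB : LB → ℝ) (cF : LF → ℝ)
    {a : LF → (Gt → ℝ) → ℝ} {η : ℝ} (hA : AmU a η) (hη1 : η ≤ 1 / 2) {g0 : Gt}
    {Lm : Finset LF} (hM : Mods a η g0 Lm)
    {x : ℝ} (hx0 : 0 ≤ x) (hx : x < 1) (hs : 0 < ∑ l ∈ Lm, cF l ^ 2) {r0 : ℝ}
    (hc : c g0 = (∑ l ∈ Lm, cF l ^ 2) * n * (1 - (1 - x) * r0)) (hk : 0 < 1 - (1 - x) * r0)
    {S S1 : Finset (Fin n)} (hS : S ⊆ S1) (hSn : S.Nonempty) {i0 : Fin n} (hi : i0 ∉ S)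
    (hne : (S1 \ S).Nonempty) (BL : Finset LB) (FL : Finset LF)
    {P : Finset LF} (hP : ∀ l ∈ P, ∀ θ, a l θ = 1) {l0 : LF} (hl0 : l0 ∈ P)
    (hc0 : cF l0 ≠ 0) (hlF : l0 ∉ FL)
    {b2 : ℝ} (hb2 : 0 < b2) (hxK : x ≤ H355.cK b2 / 4)
    (hb : b ^ 2 * ∑ l, cB l ^ 2 + (1 + η) ^ 2 * ∑ l, cF l ^ 2 ≤ b2)
    {b0 : ℝ} (hb0 : 0 ≤ b0) (hxb : x * b0 ≤ 1 / 4) (hbb : b2 ≤ b0 ^ 2)
    {τ v : ℝ} (hτ : τ = b ^ 2 / n * ∑ l ∈ BL, cB l ^ 2) (hv : v = ∑ l ∈ FL ∩ P, cF l ^ 2)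
    {G A : ℝ} (hG0 : 0 ≤ G)
    (hG4 : 2 * τ ^ 4 * q4U n (nuG lam η c) b cB cF a x (Kset S BL FL) S + 2 * v ^ 4 ≤ G ^ 2)
    (hA0 : 0 ≤ A)
    (hA' : A ≤ Y2U n (nuG lam η c) b cB cF a x (Kset S BL FL) (fun θ => al η (θ g0)) S τ v -
      11 * G * √(32 / H355.cK b2 * (1 / √(Sᶜ.card : ℝ) + (1 / (|cF l0| * √n) +
        2 * η * √(∑ l ∈ Pᶜ, cF l ^ 2) / √(∑ l ∈ P, cF l ^ 2))))) :
    H355.cK b2 ^ 2 / 4 * (A * √A) ≤
      neR (C3n (1 - (1 - x) * r0) τ v x η S.card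
        (QsU n (nuG lam η c) b cB cF a x (Kset S BL FL) (fun θ => al η (θ g0)) S)
        (icU n (nuG lam η c) b cB cF a x (Kset S BL FL) (Kset (insert i0 S) BL FL)
          (fun θ => al η (θ g0)) S)
        (Y2U n (nuG lam η c) b cB cF a x (Kset S BL FL) (fun θ => al η (θ g0)) S τ v)
        (rkU n (nuG lam η c) b cB cF a x (Kset S BL FL) S)
        (errD η r0 (lam g0 / ((∑ l ∈ Lm, cF l ^ 2) * n))
          ((∑ l ∈ Lm.filter (· ∈ FL), cF l ^ 2) / ((∑ l ∈ Lm, cF l ^ 2) * n))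
          (S1 \ S).card S.card
          (R2U n (nuG lam η c) b cB cF a x (Kset S1 BL FL) Finset.univ)
          (R2U n (nuG lam η c) b cB cF a x (Kset S BL FL) S)
          (X2U n (nuG lam η c) b cB cF a x (Kset S BL FL) (fun θ => al η (θ g0)) S)
          (stk n (nuG lam η c) b cB cF a η x g0)
          (QsU n (nuG lam η c) b cB cF a x (Kset S BL FL) (fun θ => al η (θ g0)) S))
        (|1 - (1 - x) * r0| * η + lam g0 / ((∑ l ∈ Lm, cF l ^ 2) * n) +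
          (|r0| + 1) * (1 + η) * stk n (nuG lam η c) b cB cF a η x g0))
        (1 - (1 - x) * r0) τ x η b0
        (Y2U n (nuG lam η c) b cB cF a x (Kset S BL FL) (fun θ => al η (θ g0)) S τ v)
        (rkU n (nuG lam η c) b cB cF a x (Kset S BL FL) S) G := by
  have hη := hA.nn
  have hν := finite_nuG h hη c
  have h0 := nuG_ne h hη c
  have hr : Measurable fun θ : Gt → ℝ => al η (θ g0) :=
    (measurable_al η).comp (measurable_pi_apply g0)
  have hrη : ∀ θ : Gt → ℝ, |al η (θ g0) - 1| ≤ η := fun θ => abs_al_sub hη (θ g0)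
  have hsub : b ^ 2 * (∑ l ∈ BL, cB l ^ 2) + (1 + η) ^ 2 * ∑ l ∈ FL, cF l ^ 2 ≤ b0 ^ 2 := by
    have h1 : ∑ l ∈ BL, cB l ^ 2 ≤ ∑ l, cB l ^ 2 :=
      Finset.sum_le_sum_of_subset_of_nonneg (Finset.subset_univ _) fun _ _ _ => sq_nonneg _
    have h2 : ∑ l ∈ FL, cF l ^ 2 ≤ ∑ l, cF l ^ 2 :=
      Finset.sum_le_sum_of_subset_of_nonneg (Finset.subset_univ _) fun _ _ _ => sq_nonneg _
    have h3 := mul_le_mul_of_nonneg_left h1 (sq_nonneg b)
    have h4 := mul_le_mul_of_nonneg_left h2 (sq_nonneg (1 + η))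
    linarith
  have hk3 := H355.k3_KU (n := n) hν h0 hA b cB cF hx0 hb2 hxK hb hP hl0 hc0 (A := S)
    (BL := BL) hlF hi
  have hD := dU (n := n) (b := b) (cB := cB) h hA hM hx0 hx hs hc BL FL hS hi hne
  have hDf := i2f_U (n := n) (b := b) (cB := cB) h hA hM hx hx0 hs hc i0
  exact ne_U0 hν h0 b cB cF (cPl P cF) hA hη1 hx0 hx.le hSn hi BL FL
    (fun l _ θ => cPl_mul hP l θ) hr hrη hk hb0 hxb hsub hτ
    (by rw [hv, sum_cPl]) hD hDf (H355.cK_pos hb2).le hk3 hG0 hG4 hA0 hA'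

end U

end Vale.Agent.P146.H585
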