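import Vale.Agent.P146.H339.BigRoot

/-! P146, supplement to block 11-BR-ABS: exclusion of the big root when the tangent may be
negative.  Only the negative part of `τ2` has to be small; a positive `τ2` (of any size) costs
the extra loss `8 max τ2 0 * ξ / L ^ 2` in the gap.  Index `1` = finer sigma-field (more bonds or
more fields revealed), index `2` = coarser one. -/

namespace Vale.Agent.P146.H585.BR

open MeasureTheory Vale.Agent.P146.H339.BR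

/-! ### real arithmetic -/

lemma step2_le {a τ v ℓ m p r : ℝ} (hv : 0 ≤ v) (hℓ : 0 < ℓ) (hm0 : 0 ≤ m) (hmτ : -m ≤ τ)
    (hp0 : 0 < p) (hp : p * ℓ ≤ 1) (hr0 : 0 < r) (hr : r * ℓ ≤ 1) (h : r ≤ p)
    (hreg : 2 * m * ℓ + 3 * v ≤ a * ℓ ^ 2) :
    a * r + τ * r ^ 2 - v * r ^ 3 ≤ a * p + τ * p ^ 2 - v * p ^ 3 := by
  have hsum : (p + r) * ℓ ≤ 2 := by nlinarith
  have hbr : 0 ≤ a + τ * (p + r) - v * (p ^ 2 + p * r + r ^ 2) := by
    have e1 : (m * (p + r) + v * (p ^ 2 + p * r + r ^ 2)) * ℓ ^ 2 ≤ 2 * m * ℓ + 3 * v := by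
      have f1 : m * (p + r) * ℓ ^ 2 ≤ 2 * m * ℓ := by
        have : m * ℓ * ((p + r) * ℓ) ≤ m * ℓ * 2 :=
          mul_le_mul_of_nonneg_left hsum (by positivity)
        nlinarith
      have g1 : (p * ℓ) ^ 2 ≤ 1 := by
        have : 0 ≤ p * ℓ := by positivity
        nlinarith
      have g2 : (r * ℓ) ^ 2 ≤ 1 := by
        have : 0 ≤ r * ℓ := by positivity
        nlinarith
      have g3 : (p * ℓ) * (r * ℓ) ≤ 1 := by
        have : 0 ≤ p * ℓ := by positivity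
        have : 0 ≤ r * ℓ := by positivity
        nlinarith
      have f2 : v * (p ^ 2 + p * r + r ^ 2) * ℓ ^ 2 ≤ 3 * v := by
        have : v * ((p * ℓ) ^ 2 + (p * ℓ) * (r * ℓ) + (r * ℓ) ^ 2) ≤ v * 3 :=
          mul_le_mul_of_nonneg_left (by linarith) hv
        nlinarith
      nlinarith
    have e2 : (m * (p + r) + v * (p ^ 2 + p * r + r ^ 2)) * ℓ ^ 2 ≤ a * ℓ ^ 2 := e1.trans hreg
    have e3 : m * (p + r) + v * (p ^ 2 + p * r + r ^ 2) ≤ a :=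
      le_of_mul_le_mul_right e2 (by positivity)
    have e4 : -(m * (p + r)) ≤ τ * (p + r) := by
      have := mul_le_mul_of_nonneg_right hmτ (by positivity : (0:ℝ) ≤ p + r)
      linarith
    linarith
  have h0 : 0 ≤ (p - r) * (a + τ * (p + r) - v * (p ^ 2 + p * r + r ^ 2)) :=
    mul_nonneg (by linarith) hbr
  have h1 : (p - r) * (a + τ * (p + r) - v * (p ^ 2 + p * r + r ^ 2)) =
      (a * p + τ * p ^ 2 - v * p ^ 3) - (a * r + τ * r ^ 2 - v * r ^ 3) := by ring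
  linarith

lemma step2_ge {a τ v L ξ t p r : ℝ} (ha : 0 ≤ a) (hv : 0 ≤ v) (hL : 0 < L)
    (hξ0 : 0 ≤ ξ) (ht0 : 0 ≤ t) (htτ : τ ≤ t)
    (hp0 : 0 < p) (hr0 : 0 < r) (hp : p * L ≤ 1) (hr : r * L ≤ 2)
    (hrp : (1 - ξ) * r ≤ p) (h : p ≤ r) :
    a * r + τ * r ^ 2 - v * r ^ 3 ≤
      a * p + τ * p ^ 2 - v * p ^ 3 + (2 * ξ / L) * (a + 4 * t / L) := by
  have hs5 : p + r ≤ 4 / L := by
    rw [le_div_iff₀ hL]; linarith
  have hbr : a + τ * (p + r) - v * (p ^ 2 + p * r + r ^ 2) ≤ a + 4 * t / L := by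
    have h1 : τ * (p + r) ≤ t * (p + r) := mul_le_mul_of_nonneg_right htτ (by positivity)
    have h2 : t * (p + r) ≤ t * (4 / L) := mul_le_mul_of_nonneg_left hs5 ht0
    have h3 : 0 ≤ v * (p ^ 2 + p * r + r ^ 2) := by positivity
    have h5 : t * (4 / L) = 4 * t / L := by ring
    linarith
  have e1 : (r - p) * (a + τ * (p + r) - v * (p ^ 2 + p * r + r ^ 2)) ≤
      (r - p) * (a + 4 * t / L) := mul_le_mul_of_nonneg_left hbr (by linarith)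
  have e2 : r - p ≤ 2 * ξ / L := by
    rw [le_div_iff₀ hL]
    have h1 : r - p ≤ ξ * r := by linarith
    calc (r - p) * L ≤ (ξ * r) * L := mul_le_mul_of_nonneg_right h1 hL.le
      _ = ξ * (r * L) := by ring
      _ ≤ ξ * 2 := mul_le_mul_of_nonneg_left hr hξ0
      _ = 2 * ξ := by ring
  have hnn : 0 ≤ a + 4 * t / L := by positivity
  have e3 : (r - p) * (a + 4 * t / L) ≤ (2 * ξ / L) * (a + 4 * t / L) :=
    mul_le_mul_of_nonneg_right e2 hnn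
  have e4 : (r - p) * (a + τ * (p + r) - v * (p ^ 2 + p * r + r ^ 2)) =
      (a * r + τ * r ^ 2 - v * r ^ 3) - (a * p + τ * p ^ 2 - v * p ^ 3) := by ring
  linarith

lemma step2 {a τ v ℓ L ξ p r : ℝ} (ha : 0 ≤ a) (hv : 0 ≤ v) (hL : 0 < L)
    (hℓL : ℓ = (1 - ξ) * L) (hξ0 : 0 ≤ ξ) (hξ : ξ ≤ 1 / 2)
    (hp0 : 0 < p) (hp : p * L ≤ 1) (hr0 : 0 < r) (hr : r * ℓ ≤ 1)
    (hrp : (1 - ξ) * r ≤ p) (hreg : 2 * max (-τ) 0 * ℓ + 3 * v ≤ a * ℓ ^ 2) :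
    a * r + τ * r ^ 2 - v * r ^ 3 ≤
      a * p + τ * p ^ 2 - v * p ^ 3 + 4 * a * ξ / L + 8 * max τ 0 * ξ / L ^ 2 := by
  have hℓ : 0 < ℓ := by rw [hℓL]; nlinarith
  have hℓ' : ℓ ≤ L := by rw [hℓL]; nlinarith
  have hpℓ : p * ℓ ≤ 1 := le_trans (by nlinarith) hp
  have hm0 : 0 ≤ max (-τ) 0 := le_max_right _ _
  have ht0 : 0 ≤ max τ 0 := le_max_right _ _
  have hmτ : -max (-τ) 0 ≤ τ := by
    have := le_max_left (-τ) (0:ℝ)
    linarith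
  have htτ : τ ≤ max τ 0 := le_max_left _ _
  have h4 : 0 ≤ 4 * a * ξ / L := by positivity
  have h8 : 0 ≤ 8 * max τ 0 * ξ / L ^ 2 := by positivity
  rcases le_total r p with h | h
  · have := step2_le (a := a) hv hℓ hm0 hmτ hp0 hpℓ hr0 hr h hreg
    linarith
  · have hLℓ : L ≤ 2 * ℓ := by rw [hℓL]; nlinarith
    have hr2 : r * L ≤ 2 := by
      have : r * L ≤ r * (2 * ℓ) := mul_le_mul_of_nonneg_left hLℓ hr0.le
      linarith
    have h5 := step2_ge (a := a) (v := v) ha hv hL hξ0 ht0 htτ hp0 hr0 hp hr2 hrp h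
    have h6 : (2 * ξ / L) * (a + 4 * max τ 0 / L) =
        2 * a * ξ / L + 8 * max τ 0 * ξ / L ^ 2 := by
      have hL' : L ≠ 0 := hL.ne'
      field_simp
      ring
    have h7 : 2 * a * ξ / L ≤ 4 * a * ξ / L := by
      apply div_le_div_of_nonneg_right _ hL.le
      have : 0 ≤ a * ξ := by positivity
      linarith
    linarith

/-- The pointwise form, signed version of `H339.BR.point`. -/
lemma point2 {a τ1 τ2 v1 v2 L ξ η U q1 q2 k1 k2 : ℝ} (ha : 0 ≤ a) (hv : 0 ≤ v2) (hL : 0 < L)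
    (hξ0 : 0 ≤ ξ) (hξ : ξ ≤ 1 / 2) (hη : 0 ≤ η) (hτ : τ1 ≤ τ2) (hv12 : v2 ≤ v1)
    (hreg : 2 * max (-τ2) 0 * ((1 - ξ) * L) + 3 * v2 ≤ a * ((1 - ξ) * L) ^ 2)
    (hq2 : L ≤ q2) (h12 : (1 - ξ) * q2 ≤ q1) (hU : q1 ≤ U)
    (h1 : k1 ^ 2 * q1 ≤ a + τ1 / q1 - v1 / q1 ^ 2 + η)
    (h2 : a + τ2 / q2 - v2 / q2 ^ 2 - η ≤ k2 ^ 2 * q2) :
    k1 ^ 2 + ((τ2 - τ1) / U ^ 2 + (v1 - v2) / U ^ 3 - 4 * a * ξ / L
      - 8 * max τ2 0 * ξ / L ^ 2 - 3 * η / L) ≤ k2 ^ 2 := by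
  have hq2' : 0 < q2 := lt_of_lt_of_le hL hq2
  have hq1 : 0 < q1 := by nlinarith
  have hU0 : 0 < U := lt_of_lt_of_le hq1 hU
  set r : ℝ := 1 / q1 with hr
  set p : ℝ := 1 / q2 with hp
  have hr0 : 0 < r := by positivity
  have hp0 : 0 < p := by positivity
  have hrq : r * q1 = 1 := by rw [hr]; field_simp
  have hpq : p * q2 = 1 := by rw [hp]; field_simp
  have hpL : p * L ≤ 1 := by
    exact le_of_le_of_eq (mul_le_mul_of_nonneg_left hq2 hp0.le) hpq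
  have hrℓ : r * ((1 - ξ) * L) ≤ 1 := by
    have : (1 - ξ) * L ≤ q1 :=
      le_trans (mul_le_mul_of_nonneg_left hq2 (by linarith)) h12
    exact le_of_le_of_eq (mul_le_mul_of_nonneg_left this hr0.le) hrq
  have hrp : (1 - ξ) * r ≤ p := by
    have : (1 - ξ) * r * q2 ≤ 1 := by
      calc (1 - ξ) * r * q2 = r * ((1 - ξ) * q2) := by ring
        _ ≤ r * q1 := mul_le_mul_of_nonneg_left h12 hr0.le
        _ = 1 := hrq
    have h' : (1 - ξ) * r * q2 ≤ p * q2 := by rw [hpq]; exact this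
    exact le_of_mul_le_mul_right h' hq2'
  have hst := step2 (τ := τ2) ha hv hL rfl hξ0 hξ hp0 hpL hr0 hrℓ hrp hreg
  -- convert the equations
  have g1 : k1 ^ 2 ≤ a * r + τ1 * r ^ 2 - v1 * r ^ 3 + η * r := by
    have : k1 ^ 2 * q1 * r ≤ (a + τ1 / q1 - v1 / q1 ^ 2 + η) * r :=
      mul_le_mul_of_nonneg_right h1 hr0.le
    have e1 : k1 ^ 2 * q1 * r = k1 ^ 2 := by rw [mul_assoc, mul_comm q1 r, hrq, mul_one]
    have e2 : τ1 / q1 = τ1 * r := by rw [hr]; ring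
    have e3 : v1 / q1 ^ 2 = v1 * r ^ 2 := by rw [hr]; ring
    rw [e1, e2, e3] at this
    calc k1 ^ 2 ≤ (a + τ1 * r - v1 * r ^ 2 + η) * r := this
      _ = a * r + τ1 * r ^ 2 - v1 * r ^ 3 + η * r := by ring
  have g2 : a * p + τ2 * p ^ 2 - v2 * p ^ 3 - η * p ≤ k2 ^ 2 := by
    have : (a + τ2 / q2 - v2 / q2 ^ 2 - η) * p ≤ k2 ^ 2 * q2 * p :=
      mul_le_mul_of_nonneg_right h2 hp0.le
    have e1 : k2 ^ 2 * q2 * p = k2 ^ 2 := by rw [mul_assoc, mul_comm q2 p, hpq, mul_one]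
    have e2 : τ2 / q2 = τ2 * p := by rw [hp]; ring
    have e3 : v2 / q2 ^ 2 = v2 * p ^ 2 := by rw [hp]; ring
    rw [e1, e2, e3] at this
    calc a * p + τ2 * p ^ 2 - v2 * p ^ 3 - η * p = (a + τ2 * p - v2 * p ^ 2 - η) * p := by ring
      _ ≤ k2 ^ 2 := this
  have hrU : 1 / U ^ 2 ≤ r ^ 2 := by
    rw [hr, div_pow, one_pow]
    exact one_div_le_one_div_of_le (by positivity) (pow_le_pow_left₀ hq1.le hU 2)
  have hrU3 : 1 / U ^ 3 ≤ r ^ 3 := by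
    rw [hr, div_pow, one_pow]
    exact one_div_le_one_div_of_le (by positivity) (pow_le_pow_left₀ hq1.le hU 3)
  have g3 : (τ2 - τ1) / U ^ 2 ≤ (τ2 - τ1) * r ^ 2 := by
    have := mul_le_mul_of_nonneg_left hrU (sub_nonneg.2 hτ)
    calc (τ2 - τ1) / U ^ 2 = (τ2 - τ1) * (1 / U ^ 2) := by ring
      _ ≤ _ := this
  have g3' : (v1 - v2) / U ^ 3 ≤ (v1 - v2) * r ^ 3 := by
    have := mul_le_mul_of_nonneg_left hrU3 (sub_nonneg.2 hv12)
    calc (v1 - v2) / U ^ 3 = (v1 - v2) * (1 / U ^ 3) := by ring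
      _ ≤ _ := this
  have g4 : η * r ≤ 2 * η / L := by
    rw [le_div_iff₀ hL]
    have hrL : r * L ≤ 2 := by
      have h1 : (1 - ξ) * (r * L) ≤ 1 := by linarith
      have h2 : 0 ≤ r * L := by positivity
      have h3 : (1 / 2) * (r * L) ≤ (1 - ξ) * (r * L) :=
        mul_le_mul_of_nonneg_right (by linarith) h2
      linarith
    calc η * r * L = η * (r * L) := by ring
      _ ≤ η * 2 := mul_le_mul_of_nonneg_left hrL hη
      _ = 2 * η := by ring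
  have g5 : η * p ≤ η / L := by
    rw [le_div_iff₀ hL]
    calc η * p * L = η * (p * L) := by ring
      _ ≤ η * 1 := mul_le_mul_of_nonneg_left hpL hη
      _ = η := by ring
  have g6 : 3 * η / L = 2 * η / L + η / L := by ring
  have g7 : (τ2 - τ1) * r ^ 2 = τ2 * r ^ 2 - τ1 * r ^ 2 := by ring
  have g8 : (v1 - v2) * r ^ 3 = v1 * r ^ 3 - v2 * r ^ 3 := by ring
  rw [g6]
  linarith

/-! ### measure theory -/

variable {Ω : Type*} {m0 : MeasurableSpace Ω} {P : Measure Ω}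

/-- **Exclusion of the big root, probability form**, signed version of `H339.BR.big_root`:
only the negative part of `τ2` enters the regularity condition. -/
theorem big_root2 [IsFiniteMeasure P] {k1 k2 Q1 Q2 : Ω → ℝ}
    {a τ1 τ2 v1 v2 L ξ η U C g p1 p2 p3 p4 : ℝ}
    (ha : 0 ≤ a) (hv : 0 ≤ v2) (hL : 0 < L) (hξ0 : 0 ≤ ξ) (hξ : ξ ≤ 1 / 2) (hη : 0 ≤ η)
    (hτ : τ1 ≤ τ2) (hv12 : v2 ≤ v1)
    (hreg : 2 * max (-τ2) 0 * ((1 - ξ) * L) + 3 * v2 ≤ a * ((1 - ξ) * L) ^ 2)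
    (hg : 0 < g)
    (hgap : g ≤ (τ2 - τ1) / U ^ 2 + (v1 - v2) / U ^ 3 - 4 * a * ξ / L
      - 8 * max τ2 0 * ξ / L ^ 2 - 3 * η / L)
    (hk1m : Measurable k1) (hk2m : Measurable k2) (hQ1m : Measurable Q1) (hQ2m : Measurable Q2)
    (hk1 : ∀ᵐ ω ∂P, |k1 ω| ≤ C) (hk2 : ∀ᵐ ω ∂P, |k2 ω| ≤ C)
    (hmono : ∫ ω in {ω | L ≤ Q2 ω}, k2 ω ^ 2 ∂P ≤ ∫ ω in {ω | L ≤ Q2 ω}, k1 ω ^ 2 ∂P)
    (h12 : P.real {ω | L ≤ Q2 ω ∧ Q1 ω < (1 - ξ) * Q2 ω} ≤ p1)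
    (hU : P.real {ω | U < Q1 ω} ≤ p2)
    (hE1 : P.real {ω | (1 - ξ) * L ≤ Q1 ω ∧
      a + τ1 / Q1 ω - v1 / Q1 ω ^ 2 + η < k1 ω ^ 2 * Q1 ω} ≤ p3)
    (hE2 : P.real {ω | L ≤ Q2 ω ∧
      k2 ω ^ 2 * Q2 ω < a + τ2 / Q2 ω - v2 / Q2 ω ^ 2 - η} ≤ p4) :
    P.real {ω | L ≤ Q2 ω} ≤ (1 + C ^ 2 / g) * (p1 + p2 + p3 + p4) := by
  set E1 := {ω | L ≤ Q2 ω ∧ Q1 ω < (1 - ξ) * Q2 ω} with hE1d
  set E2 := {ω | U < Q1 ω} with hE2d
  set E3 := {ω | (1 - ξ) * L ≤ Q1 ω ∧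
      a + τ1 / Q1 ω - v1 / Q1 ω ^ 2 + η < k1 ω ^ 2 * Q1 ω} with hE3d
  set E4 := {ω | L ≤ Q2 ω ∧
      k2 ω ^ 2 * Q2 ω < a + τ2 / Q2 ω - v2 / Q2 ω ^ 2 - η} with hE4d
  have m1 : MeasurableSet E1 := by
    apply MeasurableSet.inter
    · exact measurableSet_le measurable_const hQ2m
    · exact measurableSet_lt hQ1m (hQ2m.const_mul _)
  have m2' : MeasurableSet E2 := measurableSet_lt measurable_const hQ1m
  have m3 : MeasurableSet E3 := by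
    apply MeasurableSet.inter
    · exact measurableSet_le measurable_const hQ1m
    · exact measurableSet_lt
        (((measurable_const.add (measurable_const.div hQ1m)).sub
          (measurable_const.div (hQ1m.pow_const 2))).add measurable_const)
        ((hk1m.pow_const 2).mul hQ1m)
  have m4 : MeasurableSet E4 := by
    apply MeasurableSet.inter
    · exact measurableSet_le measurable_const hQ2m
    · exact measurableSet_lt ((hk2m.pow_const 2).mul hQ2m)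
        (((measurable_const.add (measurable_const.div hQ2m)).sub
          (measurable_const.div (hQ2m.pow_const 2))).sub measurable_const)
  have hE : P.real (E1 ∪ E2 ∪ E3 ∪ E4) ≤ p1 + p2 + p3 + p4 := by
    have a1 := measureReal_union_le (μ := P) (E1 ∪ E2 ∪ E3) E4
    have a2 := measureReal_union_le (μ := P) (E1 ∪ E2) E3
    have a3 := measureReal_union_le (μ := P) E1 E2
    linarith
  have hfin := gap (P := P) (k1 := k1) (k2 := k2) (B := {ω | L ≤ Q2 ω})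
    (E := E1 ∪ E2 ∪ E3 ∪ E4) (C := C) (g := g)
    (measurableSet_le measurable_const hQ2m) (((m1.union m2').union m3).union m4) hg
    hk1m.aestronglyMeasurable hk2m.aestronglyMeasurable hk1 hk2 hmono
    (ae_of_all _ (fun ω hb he => by
      simp only [Set.mem_union, not_or] at he
      obtain ⟨⟨⟨he1, he2⟩, he3⟩, he4⟩ := he
      have hb' : L ≤ Q2 ω := hb
      have c1 : (1 - ξ) * Q2 ω ≤ Q1 ω := by
        by_contra hcon
        exact he1 ⟨hb', not_le.1 hcon⟩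
      have c2 : Q1 ω ≤ U := by
        by_contra hcon
        exact he2 (not_le.1 hcon)
      have c0 : (1 - ξ) * L ≤ Q1 ω := le_trans (by nlinarith) c1
      have c3 : k1 ω ^ 2 * Q1 ω ≤ a + τ1 / Q1 ω - v1 / Q1 ω ^ 2 + η := by
        by_contra hcon
        exact he3 ⟨c0, not_le.1 hcon⟩
      have c4 : a + τ2 / Q2 ω - v2 / Q2 ω ^ 2 - η ≤ k2 ω ^ 2 * Q2 ω := by
        by_contra hcon
        exact he4 ⟨hb', not_le.1 hcon⟩
      have := point2 ha hv hL hξ0 hξ hη hτ hv12 hreg hb' c1 c2 c3 c4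
      linarith))
  refine hfin.trans ?_
  have hC : 0 ≤ 1 + C ^ 2 / g := by positivity
  exact mul_le_mul_of_nonneg_left hE hC

/-- **Exclusion of the big root, L1 form**, signed version of `H339.BR.big_root_L1`.  The row
equation `k² Q³ = a Q² + τ Q - v` in `L1(P)` at both sigma-fields, `Q1 ≥ (1-ξ) Q2` and `Q1 ≤ U`
off small events. -/
theorem big_root2_L1 [IsFiniteMeasure P] {k1 k2 Q1 Q2 : Ω → ℝ}
    {a τ1 τ2 v1 v2 L ξ η U C g p1 p2 e1 e2 : ℝ}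
    (ha : 0 ≤ a) (hv : 0 ≤ v2) (hL : 0 < L) (hξ0 : 0 ≤ ξ) (hξ : ξ ≤ 1 / 2) (hη : 0 < η)
    (hτ : τ1 ≤ τ2) (hv12 : v2 ≤ v1)
    (hreg : 2 * max (-τ2) 0 * ((1 - ξ) * L) + 3 * v2 ≤ a * ((1 - ξ) * L) ^ 2)
    (hg : 0 < g)
    (hgap : g ≤ (τ2 - τ1) / U ^ 2 + (v1 - v2) / U ^ 3 - 4 * a * ξ / L
      - 8 * max τ2 0 * ξ / L ^ 2 - 3 * η / L)
    (hk1m : Measurable k1) (hk2m : Measurable k2) (hQ1m : Measurable Q1) (hQ2m : Measurable Q2)
    (hk1 : ∀ᵐ ω ∂P, |k1 ω| ≤ C) (hk2 : ∀ᵐ ω ∂P, |k2 ω| ≤ C)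
    (hmono : ∫ ω in {ω | L ≤ Q2 ω}, k2 ω ^ 2 ∂P ≤ ∫ ω in {ω | L ≤ Q2 ω}, k1 ω ^ 2 ∂P)
    (h12 : P.real {ω | L ≤ Q2 ω ∧ Q1 ω < (1 - ξ) * Q2 ω} ≤ p1)
    (hU : P.real {ω | U < Q1 ω} ≤ p2)
    (hi1 : Integrable (fun ω => k1 ω ^ 2 * Q1 ω ^ 3 - a * Q1 ω ^ 2 - τ1 * Q1 ω + v1) P)
    (hi2 : Integrable (fun ω => k2 ω ^ 2 * Q2 ω ^ 3 - a * Q2 ω ^ 2 - τ2 * Q2 ω + v2) P)
    (hE1 : ∫ ω, |k1 ω ^ 2 * Q1 ω ^ 3 - a * Q1 ω ^ 2 - τ1 * Q1 ω + v1| ∂P ≤ e1)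
    (hE2 : ∫ ω, |k2 ω ^ 2 * Q2 ω ^ 3 - a * Q2 ω ^ 2 - τ2 * Q2 ω + v2| ∂P ≤ e2) :
    P.real {ω | L ≤ Q2 ω} ≤
      (1 + C ^ 2 / g) * (p1 + p2 + e1 / (η * ((1 - ξ) * L) ^ 2) + e2 / (η * L ^ 2)) := by
  have hℓ : 0 < (1 - ξ) * L := mul_pos (by linarith) hL
  have m1 := markov_up (P := P) hℓ hη hi1 hE1
  have m2 := markov_up (P := P) hL hη hi2 hE2
  refine big_root2 ha hv hL hξ0 hξ hη.le hτ hv12 hreg hg hgap hk1m hk2m hQ1m hQ2m hk1 hk2 hmono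
    h12 hU (le_trans (measureReal_mono ?_) m1) (le_trans (measureReal_mono ?_) m2)
  · rintro ω ⟨h1, h2⟩
    refine ⟨h1, fun h => ?_⟩
    have := (abs_le.1 h).2
    linarith
  · rintro ω ⟨h1, h2⟩
    refine ⟨h1, fun h => ?_⟩
    have := (abs_le.1 h).1
    linarith

/-- **Direct exclusion when the tangent is very negative** (massive case): if `τ` is larger than
`C² U²`, the row equation `k² Q³ = a Q² + τ Q - v` has no root in `[L, U]` with `v ≤ a L²`: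
the event `{L ≤ Q ≤ U}` is paid by the `L1` error of the equation at ONE sigma-field. -/
theorem massive_L1 [IsFiniteMeasure P] {k Q : Ω → ℝ} {a τ v L U C p2 e : ℝ}
    (ha : 0 ≤ a) (hL : 0 < L) (hv : v ≤ a * L ^ 2) (hτ : 2 * (C ^ 2 * U ^ 2) ≤ τ) (hτ0 : 0 < τ)
    (hk : ∀ᵐ ω ∂P, |k ω| ≤ C)
    (hU : P.real {ω | U < Q ω} ≤ p2)
    (hi : Integrable (fun ω => k ω ^ 2 * Q ω ^ 3 - a * Q ω ^ 2 - τ * Q ω + v) P)
    (hE : ∫ ω, |k ω ^ 2 * Q ω ^ 3 - a * Q ω ^ 2 - τ * Q ω + v| ∂P ≤ e) :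
    P.real {ω | L ≤ Q ω} ≤ p2 + 2 * e / (τ * L) := by
  have hpos : 0 < τ * L / 2 := by positivity
  set f : Ω → ℝ := fun ω => |k ω ^ 2 * Q ω ^ 3 - a * Q ω ^ 2 - τ * Q ω + v| with hf
  have hM := mul_meas_ge_le_integral_of_nonneg (μ := P) (f := f)
    (ae_of_all _ fun _ => abs_nonneg _) hi.abs (τ * L / 2)
  have hsub : P.real {ω | L ≤ Q ω ∧ Q ω ≤ U} ≤ P.real {ω | τ * L / 2 ≤ f ω} := by
    refine ENNReal.toReal_mono (by finiteness) (measure_mono_ae ?_)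
    filter_upwards [hk] with ω hkω
    rintro ⟨h1, h2⟩
    show τ * L / 2 ≤ f ω
    have hQ : 0 < Q ω := lt_of_lt_of_le hL h1
    have hk2 : k ω ^ 2 ≤ C ^ 2 := by
      rw [← sq_abs]; exact pow_le_pow_left₀ (abs_nonneg _) hkω 2
    have hQ2 : Q ω ^ 2 ≤ U ^ 2 := pow_le_pow_left₀ hQ.le h2 2
    have h3 : k ω ^ 2 * Q ω ^ 2 ≤ τ / 2 := by
      have : k ω ^ 2 * Q ω ^ 2 ≤ C ^ 2 * U ^ 2 :=
        mul_le_mul hk2 hQ2 (by positivity) (by positivity)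
      linarith
    have h4 : k ω ^ 2 * Q ω ^ 3 ≤ τ / 2 * Q ω := by
      calc k ω ^ 2 * Q ω ^ 3 = (k ω ^ 2 * Q ω ^ 2) * Q ω := by ring
        _ ≤ τ / 2 * Q ω := mul_le_mul_of_nonneg_right h3 hQ.le
    have h5 : v ≤ a * Q ω ^ 2 :=
      hv.trans (mul_le_mul_of_nonneg_left (pow_le_pow_left₀ hL.le h1 2) ha)
    have h6 : τ * L / 2 ≤ τ / 2 * Q ω := by
      have := mul_le_mul_of_nonneg_left h1 (by positivity : (0:ℝ) ≤ τ / 2)
      linarith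
    have h7 : k ω ^ 2 * Q ω ^ 3 - a * Q ω ^ 2 - τ * Q ω + v ≤ -(τ * L / 2) := by
      have : τ * Q ω = τ / 2 * Q ω + τ / 2 * Q ω := by ring
      linarith
    have h8 := neg_le_abs (k ω ^ 2 * Q ω ^ 3 - a * Q ω ^ 2 - τ * Q ω + v)
    show τ * L / 2 ≤ |k ω ^ 2 * Q ω ^ 3 - a * Q ω ^ 2 - τ * Q ω + v|
    linarith
  have hsplit : P.real {ω | L ≤ Q ω} ≤ P.real {ω | U < Q ω} + P.real {ω | L ≤ Q ω ∧ Q ω ≤ U} := by
    refine le_trans (measureReal_mono ?_) (measureReal_union_le _ _)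
    intro ω hω
    rcases le_or_gt (Q ω) U with h | h
    · exact Or.inr ⟨hω, h⟩
    · exact Or.inl h
  have h9 : P.real {ω | τ * L / 2 ≤ f ω} ≤ 2 * e / (τ * L) := by
    rw [le_div_iff₀ (by positivity)]
    have : P.real {ω | τ * L / 2 ≤ f ω} * (τ * L) = 2 * ((τ * L / 2) * P.real {ω | τ * L / 2 ≤ f ω}) := by
      ring
    rw [this]
    have := hM.trans hE
    linarith
  linarith

end Vale.Agent.P146.H585.BR
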