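import Vale.Agent.P146.H317.ExBridge
import Vale.Agent.P146.H585.BigRoot2

/-!
# P146: exclusion of the big root with a signed tangent, in terms of `ex`

`br_ex2` is `H317.br_ex` with the regularity hypothesis of `H585.BR.big_root2_L1`; `massive_ex` is
`H585.BR.massive_L1` in terms of `ex`.
-/

open MeasureTheory

namespace Vale.Agent.P146.H585

open Vale.Agent.P146.H646 Vale.Agent.P146.H615 Vale.Agent.P146.H317

set_option linter.unusedSectionVars false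

variable {κ : Type*} [Fintype κ] [DecidableEq κ] {μ : κ → Measure ℝ}
  [∀ e, IsProbabilityMeasure (μ e)] {w : (κ → ℝ) → ℝ} {K K1 K2 : Finset κ}

lemma bm_row {k Q : (κ → ℝ) → ℝ} (a τ v : ℝ) (hk : BM k) (hQ : BM Q) :
    BM (fun z => k z ^ 2 * Q z ^ 3 - a * Q z ^ 2 - τ * Q z + v) := by
  have h3 : BM fun z => Q z ^ 3 := by
    have := (bsq hQ).mul hQ
    have e : (fun z => Q z ^ 2 * Q z) = fun z => Q z ^ 3 := by funext z; ring
    rwa [e] at this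
  exact ((((bsq hk).mul h3).sub (bcm a (bsq hQ))).sub (bcm τ hQ)).add (BM.const v)

lemma real_lt_Px (hw : Wt μ w) {Q : (κ → ℝ) → ℝ} (hQ : BM Q) (U : ℝ) :
    (Px μ w).real {z | U < Q z} = ex μ w (ind U Q) := by
  have mU : MeasurableSet {z | U < Q z} := measurableSet_lt measurable_const hQ.meas
  rw [real_Px hw mU]
  have e : ({z | U < Q z}.indicator (1 : (κ → ℝ) → ℝ)) = ind U Q := by
    funext z
    unfold ind
    by_cases hz : U < Q z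
    · rw [Set.indicator_of_mem (show z ∈ {z | U < Q z} from hz), if_pos hz]; rfl
    · rw [Set.indicator_of_notMem (show z ∉ {z | U < Q z} from hz), if_neg hz]
  rw [e]

/-- **Big root exclusion in terms of `ex`, signed tangent.** -/
theorem br_ex2 (hw : Wt μ w) (hK : K2 ⊆ K1) {ψ Q1 Q2 : (κ → ℝ) → ℝ}
    {a τ1 τ2 v1 v2 L ξ η U C g p1 p2 e1 e2 : ℝ}
    (ha : 0 ≤ a) (hv : 0 ≤ v2) (hL : 0 < L) (hξ0 : 0 ≤ ξ) (hξ : ξ ≤ 1 / 2) (hη : 0 < η)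
    (hτ : τ1 ≤ τ2) (hv12 : v2 ≤ v1)
    (hreg : 2 * max (-τ2) 0 * ((1 - ξ) * L) + 3 * v2 ≤ a * ((1 - ξ) * L) ^ 2)
    (hg : 0 < g)
    (hgap : g ≤ (τ2 - τ1) / U ^ 2 + (v1 - v2) / U ^ 3 - 4 * a * ξ / L
      - 8 * max τ2 0 * ξ / L ^ 2 - 3 * η / L)
    (hψ : BM ψ) (hψC : ∀ z, |ψ z| ≤ C) (hQ1 : BM Q1) (hQ2 : BM Q2) (hQ2d : Dep K2 Q2)
    (h12 : ex μ w ({z | L ≤ Q2 z ∧ Q1 z < (1 - ξ) * Q2 z}.indicator 1) ≤ p1)
    (hU : ex μ w (ind U Q1) ≤ p2)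
    (hE1 : ex μ w (fun z => |cx μ K1 w ψ z ^ 2 * Q1 z ^ 3 - a * Q1 z ^ 2 - τ1 * Q1 z + v1|) ≤ e1)
    (hE2 : ex μ w (fun z => |cx μ K2 w ψ z ^ 2 * Q2 z ^ 3 - a * Q2 z ^ 2 - τ2 * Q2 z + v2|) ≤ e2) :
    ex μ w ({z | L ≤ Q2 z}.indicator 1) ≤
      (1 + C ^ 2 / g) * (p1 + p2 + e1 / (η * ((1 - ξ) * L) ^ 2) + e2 / (η * L ^ 2)) := by
  have := isProb_Px hw
  have b1 := hw.bm_cx K1 hψ
  have b2 := hw.bm_cx K2 hψ
  have mB : MeasurableSet {z | L ≤ Q2 z} := measurableSet_le measurable_const hQ2.meas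
  have m12 : MeasurableSet {z | L ≤ Q2 z ∧ Q1 z < (1 - ξ) * Q2 z} :=
    mB.inter (measurableSet_lt hQ1.meas (hQ2.meas.const_mul _))
  rw [← real_Px hw mB]
  refine BR.big_root2_L1 (P := Px μ w) ha hv hL hξ0 hξ hη hτ hv12 hreg hg hgap
    b1.meas b2.meas hQ1.meas hQ2.meas
    (Filter.Eventually.of_forall fun z => hw.abs_cx_le K1 hψ hψC z)
    (Filter.Eventually.of_forall fun z => hw.abs_cx_le K2 hψ hψC z)
    (setInt_cx_sq_mono hw hK mB (mem_le_dep hQ2d L) hψ) ?_ ?_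
    (integrable_Px hw (bm_row a τ1 v1 b1 hQ1)) (integrable_Px hw (bm_row a τ2 v2 b2 hQ2)) ?_ ?_
  · rw [real_Px hw m12]; exact h12
  · rw [real_lt_Px hw hQ1]; exact hU
  · rw [int_Px hw]; exact hE1
  · rw [int_Px hw]; exact hE2

/-- **Massive tangent in terms of `ex`**: one sigma-field suffices. -/
theorem massive_ex (hw : Wt μ w) {ψ Q : (κ → ℝ) → ℝ} {a τ v L U C p2 e : ℝ}
    (ha : 0 ≤ a) (hL : 0 < L) (hv : v ≤ a * L ^ 2) (hτ : 2 * (C ^ 2 * U ^ 2) ≤ τ) (hτ0 : 0 < τ)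
    (hψ : BM ψ) (hψC : ∀ z, |ψ z| ≤ C) (hQ : BM Q)
    (hU : ex μ w (ind U Q) ≤ p2)
    (hE : ex μ w (fun z => |cx μ K w ψ z ^ 2 * Q z ^ 3 - a * Q z ^ 2 - τ * Q z + v|) ≤ e) :
    ex μ w ({z | L ≤ Q z}.indicator 1) ≤ p2 + 2 * e / (τ * L) := by
  have := isProb_Px hw
  have b := hw.bm_cx K hψ
  have mB : MeasurableSet {z | L ≤ Q z} := measurableSet_le measurable_const hQ.meas
  rw [← real_Px hw mB]
  refine BR.massive_L1 (P := Px μ w) ha hL hv hτ hτ0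
    (Filter.Eventually.of_forall fun z => hw.abs_cx_le K hψ hψC z) ?_
    (integrable_Px hw (bm_row a τ v b hQ)) ?_
  · rw [real_lt_Px hw hQ]; exact hU
  · rw [int_Px hw]; exact hE

end Vale.Agent.P146.H585
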