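import Vale.Agent.P146.H585.R3Num
import Vale.Agent.P146.H694.K6d

/-!
# P146, K6: the numbers of `br_n` on the window

* `e1n_core`: the error `E1n` of the cubic equation;
* `gap_core`, `reg_core`: the gap and the region;
* `pbn_core`: the bound `PBn` of the probability.
-/

namespace Vale.Agent.P146.H585.Num

open Vale.Agent.P146.H694

set_option linter.all false

variable {q K : ℝ} {n : ℕ} {y : ℝ}

/-- the exponent of `n` against the small exponent -/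
lemma W6.big (h : W6 q K n y) : 65988 * (q * Real.log n) ≤ Real.log n := by
  have h1 := h.lo
  have h2 := h.hi
  linarith

/-- **The error of the cubic equation** on the window. -/
theorem e1n_core (h : W6 q K n y) {b C U hh g v η x k p j T pR R3 : ℝ} (hb : 1 ≤ b)
    (hK : Real.log (CE b C) ≤ K) (hK0 : Real.log 16 ≤ K)
    (hU0 : 0 ≤ U) (hU : U ≤ Mo q n y 37 0 1)
    (hhh0 : 0 ≤ hh) (hhh : hh ≤ Mo q n y 56 (-1 / 2) (-1))
    (hg0 : 0 ≤ g) (hg : g ≤ Mo q n y (-3800) 0 2)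
    (hv0 : 0 ≤ v) (hv : v ≤ Mo q n y (-23) 0 3)
    (hη0 : 0 ≤ η) (hη : η ≤ Mo q n y (-2000) 0 0) (hx0 : 0 ≤ x) (hx : x ≤ Mo q n y 0 0 1)
    (hk0 : 0 ≤ k) (hk : k ≤ Mo q n y (-2926) 0 1)
    (hp0 : 0 ≤ p) (hp : p ≤ Mo q n y 0 (-1) 0)
    (hj0 : 0 ≤ j) (hj : j ≤ Mo q n y 56 (-1 / 2) (-1))
    (hT0 : 0 ≤ T) (hT : T ≤ Mo q n y (-60) 0 2)
    (hpR0 : 0 ≤ pR) (hpR : pR ≤ Mo q n y 0 (-1) 0) (hR3 : R3 ≤ Mo q n y (-1366) 0 3) :
    E1n b C U hh g v η x k p j (Mo q n y (-1390) 0 3) T pR R3 ≤ Mo q n y (-1365) 0 3 := by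
  have hbig := h.big
  obtain ⟨n0, y0, L1, qL, cst, lo, hi⟩ := h
  have P : ∀ a c d : ℝ, 0 < Mo q n y a c d := Mo_pos
  have bC : CE b C ≤ Mo q n y (1 / 100) 0 0 := const_le (CE_pos hb) hK cst
  have b16 : (16 : ℝ) ≤ Mo q n y (1 / 100) 0 0 := const_le (by norm_num) hK0 cst
  obtain ⟨τ, hτ⟩ : ∃ τ, τ = Mo q n y (-1368) 0 3 := ⟨_, rfl⟩
  have τ0 : 0 < τ := by rw [hτ]; exact P _ _ _
  have m1 : U * hh ≤ τ := by
    refine (mul_le_mul hU hhh hhh0 (P _ _ _).le).trans ?_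
    rw [hτ]
    simp only [Mo_mul, Mo_pow]
    refine Mo_le ?_
    push_cast
    linarith
  have m2 : U * g ≤ τ := by
    refine (mul_le_mul hU hg hg0 (P _ _ _).le).trans ?_
    rw [hτ]
    simp only [Mo_mul, Mo_pow]
    refine Mo_le ?_
    push_cast
    linarith
  have m3 : v * η ≤ τ := by
    refine (mul_le_mul hv hη hη0 (P _ _ _).le).trans ?_
    rw [hτ]
    simp only [Mo_mul, Mo_pow]
    refine Mo_le ?_
    push_cast
    linarith
  have m4 : x * η * U ^ 2 ≤ τ := by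
    refine (mul_le_mul (mul_le_mul hx hη hη0 (P _ _ _).le) (pow_le_pow_left₀ hU0 hU 2)
      (sq_nonneg _) (mul_pos (P _ _ _) (P _ _ _)).le).trans ?_
    rw [hτ]
    simp only [Mo_mul, Mo_pow]
    refine Mo_le ?_
    push_cast
    linarith
  have m5 : x * U * k ≤ τ := by
    refine (mul_le_mul (mul_le_mul hx hU hU0 (P _ _ _).le) hk hk0
      (mul_pos (P _ _ _) (P _ _ _)).le).trans ?_
    rw [hτ]
    simp only [Mo_mul, Mo_pow]
    refine Mo_le ?_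
    push_cast
    linarith
  have m6 : p ≤ τ := by
    refine hp.trans ?_
    rw [hτ]
    refine Mo_le ?_
    linarith
  have m7 : U * j ^ 2 ≤ τ := by
    refine (mul_le_mul hU (pow_le_pow_left₀ hj0 hj 2) (sq_nonneg _) (P _ _ _).le).trans ?_
    rw [hτ]
    simp only [Mo_mul, Mo_pow]
    refine Mo_le ?_
    push_cast
    linarith
  have m8 : U ^ 4 * (j + hh) / Mo q n y (-1390) 0 3 ≤ 2 * τ := by
    have h1 : U ^ 4 * (j + hh) / Mo q n y (-1390) 0 3 ≤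
        Mo q n y 37 0 1 ^ 4 * (Mo q n y 56 (-1 / 2) (-1) + Mo q n y 56 (-1 / 2) (-1)) /
          Mo q n y (-1390) 0 3 := by
      refine div_le_div_of_nonneg_right ?_ (P _ _ _).le
      exact mul_le_mul (pow_le_pow_left₀ hU0 hU 4) (add_le_add hj hhh) (by linarith)
        (pow_pos (P _ _ _) 4).le
    refine h1.trans ?_
    have h2 : Mo q n y 37 0 1 ^ 4 * (Mo q n y 56 (-1 / 2) (-1) + Mo q n y 56 (-1 / 2) (-1)) /
        Mo q n y (-1390) 0 3 =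
        2 * (Mo q n y 37 0 1 ^ 4 * Mo q n y 56 (-1 / 2) (-1) / Mo q n y (-1390) 0 3) := by ring
    rw [h2, hτ]
    refine mul_le_mul_of_nonneg_left ?_ (by norm_num)
    simp only [Mo_mul, Mo_pow, Mo_div]
    refine Mo_le ?_
    push_cast
    linarith
  have m9 : x * (T * U ^ 2) ≤ τ := by
    refine (mul_le_mul hx (mul_le_mul hT (pow_le_pow_left₀ hU0 hU 2) (sq_nonneg _)
      (P _ _ _).le) (by positivity) (P _ _ _).le).trans ?_
    rw [hτ]
    simp only [Mo_mul, Mo_pow]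
    refine Mo_le ?_
    push_cast
    linarith
  have m10 : x * (v * U) ≤ τ := by
    refine (mul_le_mul hx (mul_le_mul hv hU hU0 (P _ _ _).le) (by positivity)
      (P _ _ _).le).trans ?_
    rw [hτ]
    simp only [Mo_mul, Mo_pow]
    refine Mo_le ?_
    push_cast
    linarith
  have m11 : x * v ^ 2 ≤ τ := by
    refine (mul_le_mul hx (pow_le_pow_left₀ hv0 hv 2) (sq_nonneg _) (P _ _ _).le).trans ?_
    rw [hτ]
    simp only [Mo_mul, Mo_pow]
    refine Mo_le ?_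
    push_cast
    linarith
  have m12 : pR ≤ τ := by
    refine hpR.trans ?_
    rw [hτ]
    refine Mo_le ?_
    linarith
  have S : U * (hh + g) + v * η + x * η * U ^ 2 + x * U * k + p + U * j ^ 2 +
      U ^ 4 * (j + hh) / Mo q n y (-1390) 0 3 + x * (T * U ^ 2 + v * U + v ^ 2) + pR ≤
      Mo q n y (1 / 100) 0 0 * τ := by
    have := mul_le_mul_of_nonneg_right b16 τ0.le
    have e1 : U * (hh + g) = U * hh + U * g := by ring
    have e2 : x * (T * U ^ 2 + v * U + v ^ 2) = x * (T * U ^ 2) + x * (v * U) + x * v ^ 2 := by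
      ring
    rw [e1, e2]
    linarith
  have S2 : CE b C * (U * (hh + g) + v * η + x * η * U ^ 2 + x * U * k + p + U * j ^ 2 +
      U ^ 4 * (j + hh) / Mo q n y (-1390) 0 3 + x * (T * U ^ 2 + v * U + v ^ 2) + pR) ≤
      Mo q n y (-1367) 0 3 := by
    refine (mul_le_mul_of_nonneg_left S (CE_pos hb).le).trans ?_
    refine (mul_le_mul_of_nonneg_right bC (mul_pos (P _ _ _) τ0).le).trans ?_
    rw [hτ]
    simp only [Mo_mul, Mo_pow]
    refine Mo_le ?_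
    push_cast
    linarith
  have S3 : Mo q n y (-1390) 0 3 ≤ Mo q n y (-1367) 0 3 := by
    refine Mo_le ?_
    linarith
  have S4 : 16 * Mo q n y (-1367) 0 3 ≤ Mo q n y (-1366) 0 3 := by
    refine (mul_le_mul_of_nonneg_right b16 (P _ _ _).le).trans ?_
    simp only [Mo_mul, Mo_pow]
    refine Mo_le ?_
    push_cast
    linarith
  have S5 : 16 * Mo q n y (-1366) 0 3 ≤ Mo q n y (-1365) 0 3 := by
    refine (mul_le_mul_of_nonneg_right b16 (P _ _ _).le).trans ?_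
    simp only [Mo_mul, Mo_pow]
    refine Mo_le ?_
    push_cast
    linarith
  have S6 := P (-1366) 0 3
  have S7 := P (-1367) 0 3
  unfold E1n
  linarith

/-- **The gap** on the window. -/
theorem gap_core (h : W6 q K n y) {b kp x p0 q1 τm Lc : ℝ} (hb : 1 ≤ b)
    (hK : Real.log (16 * b ^ 4) ≤ K) (hkb : 1 / 2 ≤ b * kp) (hkp0 : 0 ≤ kp) (hkp1 : kp ≤ 1)
    (hx0 : 0 ≤ x) (hx : x ≤ Mo q n y 0 0 1) (hpq : Mo q n y (-71) 0 2 ≤ p0 - q1)
    (hτ0 : 0 ≤ τm) (hτ : τm ≤ Mo q n y 26 0 2) (hL : Mo q n y (-9) 0 1 ≤ Lc) :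
    Mo q n y (-146) 0 0 ≤ kp ^ 2 * b ^ 2 * (p0 - q1) / Mo q n y 37 0 1 ^ 2 -
      4 * (x * kp ^ 3 * b ^ 4) * Mo q n y (-200) 0 0 / Lc -
      8 * τm * Mo q n y (-200) 0 0 / Lc ^ 2 - 3 * Mo q n y (-157) 0 1 / Lc := by
  have hbig := h.big
  obtain ⟨n0, y0, L1, qL, cst, lo, hi⟩ := h
  have P : ∀ a c d : ℝ, 0 < Mo q n y a c d := Mo_pos
  have hb0 : 0 < b := by linarith
  have bC : 16 * b ^ 4 ≤ Mo q n y (1 / 100) 0 0 := const_le (by positivity) hK cst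
  have b4 : 1 ≤ b ^ 4 := one_le_pow₀ hb
  have b16 : (16 : ℝ) ≤ Mo q n y (1 / 100) 0 0 := by linarith
  have L0 : 0 < Lc := (P _ _ _).trans_le hL
  have a1 : Mo q n y (-145 - 1 / 100) 0 0 ≤ kp ^ 2 * b ^ 2 * (p0 - q1) / Mo q n y 37 0 1 ^ 2 := by
    have h1 : 1 / 4 ≤ kp ^ 2 * b ^ 2 := by nlinarith
    have h2 : 1 / 4 * (Mo q n y (-71) 0 2 / Mo q n y 37 0 1 ^ 2) ≤
        kp ^ 2 * b ^ 2 * (p0 - q1) / Mo q n y 37 0 1 ^ 2 := by
      rw [← mul_div_assoc]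
      refine div_le_div_of_nonneg_right ?_ (pow_pos (P _ _ _) 2).le
      exact mul_le_mul h1 hpq (P _ _ _).le (by positivity)
    refine le_trans ?_ h2
    have h3 : Mo q n y (1 / 100) 0 0 * Mo q n y (-145 - 1 / 100) 0 0 ≤
        Mo q n y (-71) 0 2 / Mo q n y 37 0 1 ^ 2 := by
      simp only [Mo_mul, Mo_pow, Mo_div]
      refine Mo_le ?_
      push_cast
      linarith
    have h4 := mul_le_mul_of_nonneg_right b16 (P (-145 - 1 / 100) 0 0).le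
    linarith [P (-145 - 1 / 100) 0 0]
  have a2 : 4 * (x * kp ^ 3 * b ^ 4) * Mo q n y (-200) 0 0 / Lc ≤ Mo q n y (-147) 0 0 := by
    have h1 : 4 * (x * kp ^ 3 * b ^ 4) ≤ Mo q n y (1 / 100) 0 0 * Mo q n y 0 0 1 := by
      have k3 : kp ^ 3 ≤ 1 := pow_le_one₀ hkp0 hkp1
      calc 4 * (x * kp ^ 3 * b ^ 4) ≤ 4 * (Mo q n y 0 0 1 * 1 * b ^ 4) := by
            have := (P 0 0 1).le
            gcongr
        _ = 4 * b ^ 4 * Mo q n y 0 0 1 := by ring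
        _ ≤ _ := mul_le_mul_of_nonneg_right (by linarith) (P _ _ _).le
    have h2 : 4 * (x * kp ^ 3 * b ^ 4) * Mo q n y (-200) 0 0 / Lc ≤
        Mo q n y (1 / 100) 0 0 * Mo q n y 0 0 1 * Mo q n y (-200) 0 0 / Mo q n y (-9) 0 1 := by
      refine div_le_div₀ (mul_pos (mul_pos (P _ _ _) (P _ _ _)) (P _ _ _)).le ?_ (P _ _ _) hL
      exact mul_le_mul_of_nonneg_right h1 (P _ _ _).le
    refine h2.trans ?_
    simp only [Mo_mul, Mo_pow, Mo_div]
    refine Mo_le ?_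
    push_cast
    linarith
  have a3 : 8 * τm * Mo q n y (-200) 0 0 / Lc ^ 2 ≤ Mo q n y (-147) 0 0 := by
    have h2 : 8 * τm * Mo q n y (-200) 0 0 / Lc ^ 2 ≤
        Mo q n y (1 / 100) 0 0 * Mo q n y 26 0 2 * Mo q n y (-200) 0 0 /
          Mo q n y (-9) 0 1 ^ 2 := by
      refine div_le_div₀ (mul_pos (mul_pos (P _ _ _) (P _ _ _)) (P _ _ _)).le ?_
        (pow_pos (P _ _ _) 2) (pow_le_pow_left₀ (P _ _ _).le hL 2)
      refine mul_le_mul_of_nonneg_right ?_ (P _ _ _).le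
      exact mul_le_mul (by linarith) hτ hτ0 (P _ _ _).le
    refine h2.trans ?_
    simp only [Mo_mul, Mo_pow, Mo_div]
    refine Mo_le ?_
    push_cast
    linarith
  have a4 : 3 * Mo q n y (-157) 0 1 / Lc ≤ Mo q n y (-147) 0 0 := by
    have h2 : 3 * Mo q n y (-157) 0 1 / Lc ≤
        Mo q n y (1 / 100) 0 0 * Mo q n y (-157) 0 1 / Mo q n y (-9) 0 1 := by
      refine div_le_div₀ (mul_pos (P _ _ _) (P _ _ _)).le ?_ (P _ _ _) hL
      exact mul_le_mul_of_nonneg_right (by linarith) (P _ _ _).le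
    refine h2.trans ?_
    simp only [Mo_mul, Mo_pow, Mo_div]
    refine Mo_le ?_
    push_cast
    linarith
  have a5 : 16 * Mo q n y (-147) 0 0 ≤ Mo q n y (-146) 0 0 := by
    refine (mul_le_mul_of_nonneg_right b16 (P _ _ _).le).trans ?_
    simp only [Mo_mul, Mo_pow, Mo_div]
    refine Mo_le ?_
    push_cast
    linarith
  have a6 : 16 * Mo q n y (-146) 0 0 ≤ Mo q n y (-145 - 1 / 100) 0 0 := by
    refine (mul_le_mul_of_nonneg_right b16 (P _ _ _).le).trans ?_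
    simp only [Mo_mul, Mo_pow, Mo_div]
    refine Mo_le ?_
    push_cast
    linarith
  have := P (-146) 0 0
  linarith

/-- **The region** on the window. -/
theorem reg_core (h : W6 q K n y) {b kp x vp τn ξ Lc : ℝ} (hb : 1 ≤ b)
    (hK : Real.log 1000 ≤ K) (hkb : 1 / 2 ≤ b * kp) (hkp0 : 0 ≤ kp) (hkp1 : kp ≤ 1)
    (hx : Mo q n y 0 0 1 ≤ x) (hvp0 : 0 ≤ vp) (hvp : vp ≤ Mo q n y (-23) 0 3)
    (hξ0 : 0 ≤ ξ) (hξ : ξ ≤ 1 / 2) (hτ0 : 0 ≤ τn) (hτ : τn ≤ Mo q n y (-99 / 10) 0 2)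
    (hL1 : Mo q n y (-8 - 1 / 100) 0 1 ≤ Lc) (hL2 : Lc ≤ Mo q n y (-8) 0 1) :
    2 * τn * ((1 - ξ) * Lc) + 3 * (kp ^ 2 * vp) ≤ x * kp ^ 3 * b ^ 4 * ((1 - ξ) * Lc) ^ 2 := by
  have hbig := h.big
  obtain ⟨n0, y0, L1, qL, cst, lo, hi⟩ := h
  have P : ∀ a c d : ℝ, 0 < Mo q n y a c d := Mo_pos
  have hb0 : 0 < b := by linarith
  have b16 : (1000 : ℝ) ≤ Mo q n y (1 / 100) 0 0 := const_le (by norm_num) hK cst
  have L0 : 0 < Lc := (P _ _ _).trans_le hL1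
  have a1 : 2 * τn * ((1 - ξ) * Lc) ≤ 2 * Mo q n y (-179 / 10) 0 3 := by
    have h1 : (1 - ξ) * Lc ≤ Mo q n y (-8) 0 1 := by
      calc (1 - ξ) * Lc ≤ 1 * Lc := mul_le_mul_of_nonneg_right (by linarith) L0.le
        _ ≤ _ := by rw [one_mul]; exact hL2
    have h0 : 0 ≤ (1 - ξ) * Lc := mul_nonneg (by linarith) L0.le
    calc 2 * τn * ((1 - ξ) * Lc) = 2 * (τn * ((1 - ξ) * Lc)) := by ring
      _ ≤ 2 * (Mo q n y (-99 / 10) 0 2 * Mo q n y (-8) 0 1) :=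
        mul_le_mul_of_nonneg_left (mul_le_mul hτ h1 h0 (P _ _ _).le) (by norm_num)
      _ ≤ _ := by
        refine mul_le_mul_of_nonneg_left ?_ (by norm_num)
        simp only [Mo_mul, Mo_pow, Mo_div]
        refine Mo_le ?_
        push_cast
        linarith
  have a2 : 3 * (kp ^ 2 * vp) ≤ 3 * Mo q n y (-179 / 10) 0 3 := by
    have h1 : kp ^ 2 * vp ≤ 1 * vp :=
      mul_le_mul_of_nonneg_right (pow_le_one₀ hkp0 hkp1) hvp0
    have h2 : Mo q n y (-23) 0 3 ≤ Mo q n y (-179 / 10) 0 3 := by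
      refine Mo_le ?_
      linarith
    linarith
  have a3 : 1 / 32 * (Mo q n y 0 0 1 * Mo q n y (-8 - 1 / 100) 0 1 ^ 2) ≤
      x * kp ^ 3 * b ^ 4 * ((1 - ξ) * Lc) ^ 2 := by
    have h1 : 1 / 8 ≤ kp ^ 3 * b ^ 4 := by
      have e : kp ^ 3 * b ^ 4 = b * (b * kp) ^ 3 := by ring
      rw [e]
      have h2 : (1 / 2) ^ 3 ≤ (b * kp) ^ 3 := pow_le_pow_left₀ (by norm_num) hkb 3
      nlinarith
    have h2 : 1 / 4 * Mo q n y (-8 - 1 / 100) 0 1 ^ 2 ≤ ((1 - ξ) * Lc) ^ 2 := by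
      have h3 : 1 / 2 * Mo q n y (-8 - 1 / 100) 0 1 ≤ (1 - ξ) * Lc :=
        mul_le_mul (by linarith) hL1 (P _ _ _).le (by linarith)
      calc 1 / 4 * Mo q n y (-8 - 1 / 100) 0 1 ^ 2 =
            (1 / 2 * Mo q n y (-8 - 1 / 100) 0 1) ^ 2 := by ring
        _ ≤ _ := pow_le_pow_left₀ (mul_pos (by norm_num) (P _ _ _)).le h3 2
    calc 1 / 32 * (Mo q n y 0 0 1 * Mo q n y (-8 - 1 / 100) 0 1 ^ 2) =
          (Mo q n y 0 0 1 * (1 / 8)) * (1 / 4 * Mo q n y (-8 - 1 / 100) 0 1 ^ 2) := by ring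
      _ ≤ (x * (kp ^ 3 * b ^ 4)) * ((1 - ξ) * Lc) ^ 2 := by
        refine mul_le_mul (mul_le_mul hx h1 (by norm_num) ((P _ _ _).le.trans hx)) h2
          (mul_pos (by norm_num) (pow_pos (P _ _ _) 2)).le ?_
        exact mul_nonneg ((P _ _ _).le.trans hx) (by positivity)
      _ = _ := by ring
  refine le_trans ?_ a3
  have a4 : 1000 * Mo q n y (-179 / 10) 0 3 ≤ Mo q n y 0 0 1 * Mo q n y (-8 - 1 / 100) 0 1 ^ 2 := by
    refine (mul_le_mul_of_nonneg_right b16 (P _ _ _).le).trans ?_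
    simp only [Mo_mul, Mo_pow, Mo_div]
    refine Mo_le ?_
    push_cast
    linarith
  linarith [P (-179 / 10) 0 3]

/-- **The bound of the probability** on the window. -/
theorem pbn_core (h : W6 q K n y) {C k pR Lc : ℝ} (hC0 : 0 ≤ C)
    (hK : Real.log (1000 * (1 + C ^ 2)) ≤ K)
    (hk0 : 0 ≤ k) (hk : k ≤ Mo q n y (-2926) 0 1)
    (hpR0 : 0 ≤ pR) (hpR : pR ≤ Mo q n y 0 (-1) 0) (hL : Mo q n y (-9) 0 1 ≤ Lc) :
    PBn C (Mo q n y (-146) 0 0) (Mo q n y (-200) 0 0) (Mo q n y (-157) 0 1) Lc k pR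
      (Mo q n y (-1365) 0 3) ≤ Mo q n y (-1040) 0 0 := by
  have hbig := h.big
  obtain ⟨n0, y0, L1, qL, cst, lo, hi⟩ := h
  have P : ∀ a c d : ℝ, 0 < Mo q n y a c d := Mo_pos
  have C2 := sq_nonneg C
  have bC : 1000 * (1 + C ^ 2) ≤ Mo q n y (1 / 100) 0 0 := const_le (by positivity) hK cst
  have b16 : (1000 : ℝ) ≤ Mo q n y (1 / 100) 0 0 := by linarith
  have L0 : 0 < Lc := (P _ _ _).trans_le hL
  have a1 : 1 + C ^ 2 / Mo q n y (-146) 0 0 ≤ Mo q n y (1 / 100) 0 0 * Mo q n y 146 0 0 := by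
    have h1 : C ^ 2 / Mo q n y (-146) 0 0 = C ^ 2 * Mo q n y 146 0 0 := by
      rw [div_eq_mul_inv, Mo_inv]
      congr 2 <;> norm_num
    have h2 : 1 ≤ Mo q n y 146 0 0 := by
      unfold Mo
      rw [Real.one_le_exp_iff]
      linarith
    rw [h1]
    calc 1 + C ^ 2 * Mo q n y 146 0 0 ≤ (1 + C ^ 2) * Mo q n y 146 0 0 := by linarith
      _ ≤ _ := mul_le_mul_of_nonneg_right (by linarith) (P _ _ _).le
  have a2 : 34 * k / (Mo q n y (-200) 0 0 ^ 2 * Lc) ≤ Mo q n y (-1200) 0 0 := by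
    have h1 : 34 * k / (Mo q n y (-200) 0 0 ^ 2 * Lc) ≤
        Mo q n y (1 / 100) 0 0 * Mo q n y (-2926) 0 1 /
          (Mo q n y (-200) 0 0 ^ 2 * Mo q n y (-9) 0 1) := by
      refine div_le_div₀ (mul_pos (P _ _ _) (P _ _ _)).le
        (mul_le_mul (by linarith) hk hk0 (P _ _ _).le)
        (mul_pos (pow_pos (P _ _ _) 2) (P _ _ _)) ?_
      exact mul_le_mul_of_nonneg_left hL (pow_pos (P _ _ _) 2).le
    refine h1.trans ?_
    simp only [Mo_mul, Mo_pow, Mo_div]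
    refine Mo_le ?_
    push_cast
    linarith
  have a3 : pR ≤ Mo q n y (-1200) 0 0 := by
    refine hpR.trans ?_
    refine Mo_le ?_
    linarith
  have a4 : 5 * Mo q n y (-1365) 0 3 / (Mo q n y (-157) 0 1 * Lc ^ 2) ≤
      Mo q n y (-1189) 0 0 := by
    have h1 : 5 * Mo q n y (-1365) 0 3 / (Mo q n y (-157) 0 1 * Lc ^ 2) ≤
        Mo q n y (1 / 100) 0 0 * Mo q n y (-1365) 0 3 /
          (Mo q n y (-157) 0 1 * Mo q n y (-9) 0 1 ^ 2) := by
      refine div_le_div₀ (mul_pos (P _ _ _) (P _ _ _)).le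
        (mul_le_mul_of_nonneg_right (by linarith) (P _ _ _).le)
        (mul_pos (P _ _ _) (pow_pos (P _ _ _) 2)) ?_
      exact mul_le_mul_of_nonneg_left (pow_le_pow_left₀ (P _ _ _).le hL 2) (P _ _ _).le
    refine h1.trans ?_
    simp only [Mo_mul, Mo_pow, Mo_div]
    refine Mo_le ?_
    push_cast
    linarith
  have a5 : Mo q n y (-1200) 0 0 ≤ Mo q n y (-1189) 0 0 := by
    refine Mo_le ?_
    linarith
  unfold PBn
  have a6 : 34 * k / (Mo q n y (-200) 0 0 ^ 2 * Lc) + pR +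
      5 * Mo q n y (-1365) 0 3 / (Mo q n y (-157) 0 1 * Lc ^ 2) ≤
      Mo q n y (1 / 100) 0 0 * Mo q n y (-1189) 0 0 := by
    have := mul_le_mul_of_nonneg_right b16 (P (-1189) 0 0).le
    linarith [P (-1189) 0 0]
  have a7 : 0 ≤ 34 * k / (Mo q n y (-200) 0 0 ^ 2 * Lc) + pR +
      5 * Mo q n y (-1365) 0 3 / (Mo q n y (-157) 0 1 * Lc ^ 2) := by
    have := P (-200) 0 0
    have := P (-1365) 0 3
    have := P (-157) 0 1
    positivity
  refine (mul_le_mul a1 a6 a7 (mul_pos (P _ _ _) (P _ _ _)).le).trans ?_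
  simp only [Mo_mul, Mo_pow, Mo_div]
  refine Mo_le ?_
  push_cast
  linarith

end Vale.Agent.P146.H585.Num
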