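import Vale.Agent.P146.H620.LowN

/-!
# P146: monomials of the window in exponential form

`Mo q n y a c d = n ^ (a q + c) y ^ d`, products, quotients, powers and square roots are monomials,
and `Mo_le` compares two of them by a linear inequality between the logarithms.
-/

namespace Vale.Agent.P146.H585.Num

set_option linter.all false

/-- the monomial `n ^ (a q + c) * y ^ d` -/
noncomputable def Mo (q : ℝ) (n : ℕ) (y : ℝ) (a c d : ℝ) : ℝ :=
  Real.exp (a * (q * Real.log n) + c * Real.log n + d * Real.log y)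

variable {q : ℝ} {n : ℕ} {y : ℝ}

lemma Mo_pos (a c d : ℝ) : 0 < Mo q n y a c d := Real.exp_pos _

lemma Mo_mul (a c d a' c' d' : ℝ) :
    Mo q n y a c d * Mo q n y a' c' d' = Mo q n y (a + a') (c + c') (d + d') := by
  unfold Mo
  rw [← Real.exp_add]
  congr 1
  ring

lemma Mo_pow (a c d : ℝ) (k : ℕ) :
    Mo q n y a c d ^ k = Mo q n y (k * a) (k * c) (k * d) := by
  unfold Mo
  rw [← Real.exp_nat_mul]
  congr 1
  ring

lemma Mo_inv (a c d : ℝ) : (Mo q n y a c d)⁻¹ = Mo q n y (-a) (-c) (-d) := by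
  unfold Mo
  rw [← Real.exp_neg]
  congr 1
  ring

lemma Mo_div (a c d a' c' d' : ℝ) :
    Mo q n y a c d / Mo q n y a' c' d' = Mo q n y (a - a') (c - c') (d - d') := by
  rw [div_eq_mul_inv, Mo_inv, Mo_mul]
  congr 1

lemma Mo_sqrt (a c d : ℝ) : √(Mo q n y a c d) = Mo q n y (a / 2) (c / 2) (d / 2) := by
  have h : Mo q n y a c d = Mo q n y (a / 2) (c / 2) (d / 2) ^ 2 := by
    rw [Mo_pow]
    congr 1 <;> push_cast <;> ring
  rw [h, Real.sqrt_sq (Mo_pos _ _ _).le]

lemma Mo_rpow (hn : (0 : ℝ) < n) (a : ℝ) : (n : ℝ) ^ (a * q) = Mo q n y a 0 0 := by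
  unfold Mo
  rw [Real.rpow_def_of_pos hn]
  congr 1
  ring

lemma Mo_rpow' (hn : (0 : ℝ) < n) (c : ℝ) : (n : ℝ) ^ c = Mo q n y 0 c 0 := by
  unfold Mo
  rw [Real.rpow_def_of_pos hn]
  congr 1
  ring

lemma Mo_n (hn : (0 : ℝ) < n) : (n : ℝ) = Mo q n y 0 1 0 := by
  unfold Mo
  simp only [zero_mul, one_mul, zero_add, add_zero]
  exact (Real.exp_log hn).symm

lemma Mo_y (hy : 0 < y) : y = Mo q n y 0 0 1 := by
  unfold Mo
  simp only [zero_mul, one_mul, zero_add, add_zero]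
  exact (Real.exp_log hy).symm

lemma Mo_ypow (hy : 0 < y) (k : ℕ) : y ^ k = Mo q n y 0 0 k := by
  have h : y ^ k = Mo q n y 0 0 1 ^ k := by rw [← Mo_y hy]
  rw [h, Mo_pow]
  congr 1 <;> ring

lemma Mo_le {a c d a' c' d' : ℝ}
    (h : a * (q * Real.log n) + c * Real.log n + d * Real.log y ≤
      a' * (q * Real.log n) + c' * Real.log n + d' * Real.log y) :
    Mo q n y a c d ≤ Mo q n y a' c' d' := Real.exp_le_exp.2 h

/-- a constant is a small power -/
lemma const_le {C K : ℝ} (hC : 0 < C) (hCK : Real.log C ≤ K)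
    (hK : K ≤ q / 100 * Real.log n) : C ≤ Mo q n y (1 / 100) 0 0 := by
  unfold Mo
  rw [← Real.exp_log hC]
  refine Real.exp_le_exp.2 ?_
  linarith

end Vale.Agent.P146.H585.Num
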