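import Vale.Agent.P146.H586.Bes7
import Vale.Agent.P146.H463.NeIn
import Vale.Agent.P146.H355.NeGood
import Vale.Agent.P146.H355.K3Fin

/-!
The near end as one inequality: general system, the error of the row equation is the number `C3`.
-/

open MeasureTheory ProbabilityTheory Filter Topology

namespace Vale.Agent.P146.H585

open Vale.Agent.P157.Lv Vale.Agent.P146.H196 Vale.Agent.P146.H646 Vale.Agent.P146.H161
  Vale.Agent.P146.H615 Vale.Agent.P146.H586 Vale.Agent.P146.H463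

set_option linter.unusedSectionVars false

variable {ι : Type} [Fintype ι] [DecidableEq ι] {J : Type} [Fintype J] [DecidableEq J]
  {Ω : Type} [MeasurableSpace Ω]
  {m : Measure Ω} {E : ι → Ω → ℝ} {M0 : ℝ} {K K' R : Finset ι}
  {S : Finset J} {σ : J → Ω → ℝ} {s0 a : Ω → ℝ} {x τ v kp η b0 : ℝ}

/-- the two point functions are at most the root of the four point functions -/
lemma F2_le (hG : GM m E M0) (x : ℝ) (K : Finset ι) (hs : ∀ j, Bd (σ j)) (S : Finset J)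
    (z : ι → ℝ) : F2 m E x K σ S z ≤ √(Q4g m E x K σ S z) := by
  set C : J × J → ℝ := fun p =>
    cx (H347.g1 ι) K (Zxm m 1 E x) (avm m 1 E fun ω => σ p.1 ω * σ p.2 ω) z with hC
  set f : J × J → Ω → ℝ := fun p ω => σ p.1 ω * σ p.2 ω with hf
  have hfb : ∀ p, Bd (f p) := fun p => (hs p.1).mul (hs p.2)
  have hw := H347.wt hG 1 x
  have hA := av_gm hG 1
  have e1 : F2 m E x K σ S z = ∑ p ∈ S ×ˢ S, C p ^ 2 := by
    rw [Finset.sum_product]; rfl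
  have hAb : Bd fun ω => ∑ p ∈ S ×ˢ S, C p * f p ω := Bd.sum _ fun p _ => (hfb p).cmul _
  have e2 : cx (H347.g1 ι) K (Zxm m 1 E x)
      (avm m 1 E fun ω => ∑ p ∈ S ×ˢ S, C p * f p ω) z = ∑ p ∈ S ×ˢ S, C p ^ 2 := by
    have e5 : (avm m 1 E fun ω => ∑ p ∈ S ×ˢ S, C p * f p ω) = fun y =>
        ∑ p ∈ S ×ˢ S, C p * avm m 1 E (f p) y := by
      funext y
      rw [hA.sum (S ×ˢ S) fun p _ => (hfb p).cmul _]
      exact Finset.sum_congr rfl fun p _ => hA.smul _ _ _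
    rw [e5, cx_sum hw (S ×ˢ S) fun p _ => (BM.const _).mul (hA.bm (hfb p))]
    refine Finset.sum_congr rfl fun p _ => ?_
    rw [cx_const_mul hw, sq]
  have h1 := (cxav_sq_le hG x K hAb z).trans (quad_cs hG x K hfb (S ×ˢ S) C z)
  rw [e2, ← e1] at h1
  set F := F2 m E x K σ S z with hF
  have hF0 : 0 ≤ F := F2_nonneg x K σ S z
  have h2 : F ^ 2 ≤ F * √(Q4g m E x K σ S z) := h1
  rcases eq_or_lt_of_le hF0 with h3 | h3
  · rw [← h3]; exact Real.sqrt_nonneg _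
  · rw [sq] at h2
    exact le_of_mul_le_mul_left h2 h3

/-- the rank one defect is at most four times the root of the four point functions -/
lemma RKg_le (hG : GM m E M0) (x : ℝ) (K : Finset ι) (hs : ∀ j, Bd (σ j)) (S : Finset J)
    (z : ι → ℝ) : RKg m E x K σ S z ≤ 4 * √(Q4g m E x K σ S z) := by
  have h1 := F2_le hG x K hs S z
  have h2 := m2_sq_le hG le_rfl x K (Bd.const 1) hs (fun _ => by norm_num) S z
    (a := fun _ => (1 : ℝ)) (η := 0)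
  set μ : J → ℝ := fun j => cx (H347.g1 ι) K (Zxm m 1 E x) (avm m 1 E (σ j)) z with hμ
  have e1 : m2 S (Mg m E x K (fun _ => (1 : ℝ)) σ) z = ∑ j ∈ S, μ j ^ 2 := by
    unfold m2
    refine Finset.sum_congr rfl fun j _ => ?_
    have e2 : (fun ω => (1 : ℝ) * σ j ω) = σ j := by funext ω; ring
    show cx (H347.g1 ι) K (Zxm m 1 E x) (avm m 1 E fun ω => (1 : ℝ) * σ j ω) z ^ 2 = _
    rw [e2]
  rw [e1] at h2
  have h3 : RKg m E x K σ S z ≤ 2 * F2 m E x K σ S z + 2 * (∑ j ∈ S, μ j ^ 2) ^ 2 := by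
    have e3 : (∑ j ∈ S, μ j ^ 2) ^ 2 = ∑ j ∈ S, ∑ l ∈ S, (μ j * μ l) ^ 2 := by
      rw [sq, Finset.sum_mul]
      refine Finset.sum_congr rfl fun j _ => ?_
      rw [Finset.mul_sum]
      exact Finset.sum_congr rfl fun l _ => by ring
    rw [e3]
    unfold RKg F2
    rw [Finset.mul_sum, Finset.mul_sum, ← Finset.sum_add_distrib]
    refine Finset.sum_le_sum fun j _ => ?_
    rw [Finset.mul_sum, Finset.mul_sum, ← Finset.sum_add_distrib]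
    refine Finset.sum_le_sum fun l _ => ?_
    have h4 := sq_nonneg (Cg m E x K σ j l z + μ j * μ l)
    have e4 : Cg m E x K σ j l z = cx (H347.g1 ι) K (Zxm m 1 E x)
      (avm m 1 E fun ω => σ j ω * σ l ω) z := rfl
    rw [← e4]
    show (Cg m E x K σ j l z - μ j * μ l) ^ 2 ≤ _
    nlinarith
  have h4 : (1 + (0 : ℝ)) ^ 4 = 1 := by norm_num
  rw [h4, one_mul] at h2
  linarith

/-- the first input in the form of the Bessel bound -/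
lemma hdl_of (hG : GM m E M0) (hη : 0 ≤ η) (hη1 : η ≤ 1 / 2) (hτ : 0 ≤ τ) (hv : 0 ≤ v) (x : ℝ)
    (K : Finset ι) (ha : Bd a) (hs : ∀ j, Bd (σ j)) (haη : ∀ ω, |a ω - 1| ≤ η)
    (S : Finset J) (z : ι → ℝ) :
    τ ^ 2 * cx (gg ι) K (Zxm m 1 E x) (Vt (avm m 1 E) S (Mg m E x K a σ) σ) z ≤
      (3 / 2 * (τ * √(RKg m E x K σ S z)) + 4 * η ^ 2 * Yf S (Mg m E x K a σ) τ v z) *
        Yf S (Mg m E x K a σ) τ v z := by
  have hMd : ∀ j, H646.Dep K (Mg m E x K a σ j) := fun j => dep_cx K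
  have e : cx (gg ι) K (Zxm m 1 E x) (Vt (avm m 1 E) S (Mg m E x K a σ) σ) z =
      cx (H347.g1 ι) K (Zxm m 1 E x) (avm m 1 E fun ω =>
        ((∑ j ∈ S, Mg m E x K a σ j z * σ j ω) - m2 S (Mg m E x K a σ) z) ^ 2) z := by
    refine cx_congr_glue _ fun y => ?_
    unfold Vt
    simp only [ms_glue hMd, m2_glue hMd]
    rfl
  rw [e]
  have h1 := vt_le hG hη hη1 x K ha hs haη S z
  set q := m2 S (Mg m E x K a σ) z with hq
  have hq0 : 0 ≤ q := m2_nonneg z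
  set r := √(RKg m E x K σ S z) with hr
  have hr0 : 0 ≤ r := Real.sqrt_nonneg _
  have hYq : Yf S (Mg m E x K a σ) τ v z = τ * q + v := rfl
  set Y := Yf S (Mg m E x K a σ) τ v z with hY
  have h2 := mul_le_mul_of_nonneg_left h1 (sq_nonneg τ)
  refine h2.trans ?_
  have h3 : τ * q ≤ Y := by rw [hYq]; linarith
  have h4 : 0 ≤ τ * q := mul_nonneg hτ hq0
  have h5 : (τ * q) ^ 2 ≤ Y ^ 2 := pow_le_pow_left₀ h4 h3 2
  have h6 : (τ * r) * (τ * q) ≤ (τ * r) * Y :=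
    mul_le_mul_of_nonneg_left h3 (mul_nonneg hτ hr0)
  have h7 : η ^ 2 * (τ * q) ^ 2 ≤ η ^ 2 * Y ^ 2 := mul_le_mul_of_nonneg_left h5 (sq_nonneg _)
  calc τ ^ 2 * (3 / 2 * (q * r) + 4 * η ^ 2 * q ^ 2)
      = 3 / 2 * ((τ * r) * (τ * q)) + 4 * (η ^ 2 * (τ * q) ^ 2) := by ring
    _ ≤ 3 / 2 * ((τ * r) * Y) + 4 * (η ^ 2 * Y ^ 2) := by linarith
    _ = _ := by ring

/-- the second input in the form of the Bessel bound -/
lemma hx4_of (hG : GM m E M0) (hτ : 0 ≤ τ) (hv : 0 ≤ v) (x : ℝ) (K : Finset ι) (a : Ω → ℝ)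
    (hs : ∀ j, Bd (σ j)) (S : Finset J) (z : ι → ℝ) :
    cx (gg ι) K (Zxm m 1 E x) (P4 (avm m 1 E) S (Mg m E x K a σ) σ τ v) z ≤
      8 * (τ ^ 2 * √(Q4g m E x K σ S z) + v ^ 2) * Yf S (Mg m E x K a σ) τ v z ^ 2 := by
  have hMd : ∀ j, H646.Dep K (Mg m E x K a σ j) := fun j => dep_cx K
  set M := Mg m E x K a σ with hM
  have e : cx (gg ι) K (Zxm m 1 E x) (P4 (avm m 1 E) S M σ τ v) z =
      cx (H347.g1 ι) K (Zxm m 1 E x) (avm m 1 E fun ω => (τ * ms S M σ z ω + v) ^ 4) z := by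
    refine cx_congr_glue _ fun y => ?_
    unfold P4
    simp only [ms_glue hMd]
  rw [e]
  have hLb : Bd (ms S M σ z) := Bd.sum S fun j _ => (hs j).cmul _
  have hL4 : Bd fun ω => ms S M σ z ω ^ 4 := by
    have e : (fun ω => ms S M σ z ω ^ 4) = fun ω => (ms S M σ z ω ^ 2) ^ 2 := by
      funext ω; ring
    rw [e]; exact hLb.sq.sq
  have hX4 : Bd fun ω => (τ * ms S M σ z ω + v) ^ 4 := by
    have e : (fun ω => (τ * ms S M σ z ω + v) ^ 4) =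
        fun ω => ((τ * ms S M σ z ω + v) ^ 2) ^ 2 := by funext ω; ring
    rw [e]; exact ((hLb.cmul τ).add (Bd.const v)).sq.sq
  have h1 : cx (H347.g1 ι) K (Zxm m 1 E x) (avm m 1 E fun ω => (τ * ms S M σ z ω + v) ^ 4) z ≤
      cx (H347.g1 ι) K (Zxm m 1 E x) (avm m 1 E fun ω =>
        (8 * τ ^ 4) * ms S M σ z ω ^ 4 + 8 * v ^ 4) z := by
    refine cxav_mono hG x K hX4 ((hL4.cmul _).add (Bd.const _)) (fun ω => ?_) z
    have h3 : (τ * ms S M σ z ω + v) ^ 2 ≤ 2 * (τ * ms S M σ z ω) ^ 2 + 2 * v ^ 2 := by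
      nlinarith [sq_nonneg (τ * ms S M σ z ω - v)]
    have h4 : ((τ * ms S M σ z ω + v) ^ 2) ^ 2 ≤
        (2 * (τ * ms S M σ z ω) ^ 2 + 2 * v ^ 2) ^ 2 :=
      pow_le_pow_left₀ (sq_nonneg _) h3 2
    nlinarith [sq_nonneg ((τ * ms S M σ z ω) ^ 2 - v ^ 2)]
  refine h1.trans ?_
  rw [cxav_add hG x K (hL4.cmul _) (Bd.const _), cxav_cmul hG, cxav_const hG]
  set q := m2 S M z with hq
  have hq0 : 0 ≤ q := m2_nonneg z
  set r := √(Q4g m E x K σ S z) with hr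
  have hr0 : 0 ≤ r := Real.sqrt_nonneg _
  have hYq : Yf S M τ v z = τ * q + v := rfl
  set Y := Yf S M τ v z with hY
  have h6 : cx (H347.g1 ι) K (Zxm m 1 E x) (avm m 1 E fun ω => ms S M σ z ω ^ 4) z ≤
      q ^ 2 * r := four_cs hG x K hs S (fun j => M j z) z
  have h3 : τ * q ≤ Y := by rw [hYq]; linarith
  have h4 : 0 ≤ τ * q := mul_nonneg hτ hq0
  have h8 : (τ * q) ^ 2 ≤ Y ^ 2 := pow_le_pow_left₀ h4 h3 2
  have h9 : v ^ 2 ≤ Y ^ 2 := pow_le_pow_left₀ hv (by rw [hYq]; linarith) 2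
  have h7 : 8 * τ ^ 4 * cx (H347.g1 ι) K (Zxm m 1 E x) (avm m 1 E fun ω => ms S M σ z ω ^ 4) z ≤
      8 * τ ^ 4 * (q ^ 2 * r) := mul_le_mul_of_nonneg_left h6 (by positivity)
  have h10 : 8 * τ ^ 4 * (q ^ 2 * r) ≤ 8 * (τ ^ 2 * r) * Y ^ 2 := by
    calc 8 * τ ^ 4 * (q ^ 2 * r) = 8 * (τ ^ 2 * r) * (τ * q) ^ 2 := by ring
      _ ≤ 8 * (τ ^ 2 * r) * Y ^ 2 := mul_le_mul_of_nonneg_left h8 (by positivity)
  have h11 : 8 * v ^ 4 ≤ 8 * v ^ 2 * Y ^ 2 := by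
    calc 8 * v ^ 4 = 8 * v ^ 2 * v ^ 2 := by ring
      _ ≤ 8 * v ^ 2 * Y ^ 2 := mul_le_mul_of_nonneg_left h9 (by positivity)
  nlinarith

lemma dlY_sq {r Y q : ℝ} (hη : 0 ≤ η) (hη1 : η ≤ 1 / 2) (hτ : 0 ≤ τ) (hr0 : 0 ≤ r)
    (hY0 : 0 ≤ Y) (h7 : r ^ 2 ≤ 4 * q) (hY2 : Y ^ 2 ≤ 11 * (τ ^ 2 * q + v ^ 2)) :
    (3 / 2 * (τ * r) + 4 * η ^ 2 * Y + Y) ^ 2 ≤ 106 * (τ ^ 2 * q + v ^ 2) := by
  have h8 : 4 * η ^ 2 ≤ 1 := by nlinarith
  have h10 : 3 / 2 * (τ * r) + 4 * η ^ 2 * Y + Y ≤ 3 / 2 * (τ * r) + 2 * Y := by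
    nlinarith [mul_le_mul_of_nonneg_right h8 hY0]
  have h9 : 0 ≤ 3 / 2 * (τ * r) + 4 * η ^ 2 * Y + Y := by positivity
  have h11 : (3 / 2 * (τ * r) + 4 * η ^ 2 * Y + Y) ^ 2 ≤ (3 / 2 * (τ * r) + 2 * Y) ^ 2 :=
    pow_le_pow_left₀ h9 h10 2
  have h12 : (3 / 2 * (τ * r) + 2 * Y) ^ 2 ≤ 9 / 2 * (τ ^ 2 * r ^ 2) + 8 * Y ^ 2 := by
    nlinarith [sq_nonneg (3 / 2 * (τ * r) - 2 * Y)]
  have h13 : τ ^ 2 * r ^ 2 ≤ τ ^ 2 * (4 * q) := mul_le_mul_of_nonneg_left h7 (sq_nonneg _)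
  have h14 : 0 ≤ v ^ 2 := sq_nonneg v
  linarith

/-- the mean of `W^2`, `W = τ^2 √Q4g + v^2` -/
lemma exW2 (hG : GM m E M0) (x : ℝ) (K : Finset ι) (hs : ∀ j, Bd (σ j)) (S : Finset J)
    (τ v : ℝ) :
    ex (gg ι) (Zxm m 1 E x) (fun z => (τ ^ 2 * √(Q4g m E x K σ S z) + v ^ 2) ^ 2) ≤
      2 * τ ^ 4 * ex (gg ι) (Zxm m 1 E x) (Q4g m E x K σ S) + 2 * v ^ 4 := by
  have hw : Wt (gg ι) (Zxm m 1 E x) := hG.wt 1 x
  have bQ : BM (Q4g m E x K σ S) := bm_Q4g hG x K hs S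
  have bQs : BM fun z => √(Q4g m E x K σ S z) := bm_sqrt bQ
  have bW : BM fun z => τ ^ 2 * √(Q4g m E x K σ S z) + v ^ 2 := (bcm _ bQs).add (BM.const _)
  have e1 : 2 * v ^ 4 = ex (gg ι) (Zxm m 1 E x) (fun _ => 2 * v ^ 4) := (ex_const hw _).symm
  rw [e1, ← ex_cmul, ← ex_add hw (bcm _ bQ) (BM.const _)]
  refine ex_mono hw (bsq bW) ((bcm _ bQ).add (BM.const _)) fun z => ?_
  have h4 : √(Q4g m E x K σ S z) ^ 2 = Q4g m E x K σ S z := Real.sq_sqrt (Q4g_nonneg x K S z)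
  have h7 : (τ ^ 2 * √(Q4g m E x K σ S z)) ^ 2 = τ ^ 4 * Q4g m E x K σ S z := by
    rw [mul_pow, h4]; ring
  have h8 : (v ^ 2) ^ 2 = v ^ 4 := by ring
  have h9 := sq_nonneg (τ ^ 2 * √(Q4g m E x K σ S z) - v ^ 2)
  nlinarith

lemma bm_cube {Y : (ι → ℝ) → ℝ} (bY : BM Y) : BM fun z => Y z ^ 3 := by
  have e : (fun z => Y z ^ 3) = fun z => Y z * Y z ^ 2 := by funext z; ring
  rw [e]
  exact bY.mul (bsq bY)

/-- the good event -/
lemma good_ex {w : (ι → ℝ) → ℝ} (hw : Wt (gg ι) w) {Y W kap : (ι → ℝ) → ℝ} (bY : BM Y)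
    (hY0 : ∀ z, 0 ≤ Y z) (bW : BM W) (bkap : BM kap) (hY2 : ∀ z, Y z ^ 2 ≤ 11 * W z)
    {c pb G A : ℝ} (hc0 : 0 ≤ c)
    (hpb : ex (gg ι) w (fun z => if -c / 2 < kap z then 1 else 0) ≤ pb) (hG0 : 0 ≤ G)
    (hW2 : ex (gg ι) w (fun z => W z ^ 2) ≤ G ^ 2) (hA0 : 0 ≤ A)
    (hA : A ≤ ex (gg ι) w (fun z => Y z ^ 2) - 11 * G * √pb) :
    c ^ 2 / 4 * (A * √A) ≤ ex (gg ι) w (fun z => Y z ^ 3 * kap z ^ 2) := by
  obtain ⟨B, hB⟩ : ∃ B : (ι → ℝ) → ℝ, B = fun z => if -c / 2 < kap z then 1 else 0 := ⟨_, rfl⟩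
  have bY3 := bm_cube bY
  have bB : BM B := by
    rw [hB]
    exact H355.bm_ind (measurableSet_lt measurable_const bkap.1)
  have hB01 : ∀ z, B z = 0 ∨ B z = 1 := fun z => by
    rw [hB]
    by_cases h : -c / 2 < kap z <;> simp [h]
  obtain ⟨g, hg⟩ : ∃ g : (ι → ℝ) → ℝ, g = fun z => 1 - B z := ⟨_, rfl⟩
  have bg : BM g := by
    rw [hg]
    exact (BM.const 1).sub bB
  have hg0 : ∀ z, 0 ≤ g z := fun z => by
    rw [hg]
    rcases hB01 z with h | h <;> simp [h]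
  have hg1 : ∀ z, g z ≤ 1 := fun z => by
    rw [hg]
    rcases hB01 z with h | h <;> simp [h]
  have hcube := H355.ex_cube hw bY hY0 bg hg0 hg1
  set q1 := ex (gg ι) w (fun z => g z * Y z ^ 2) with hq1
  have hBY : ex (gg ι) w (fun z => B z * Y z ^ 2) ≤ 11 * G * √pb := by
    refine (le_abs_self _).trans ((abs_ex_mul_le hw bB (bsq bY)).trans ?_)
    have e4 : (fun z => B z ^ 2) = B := by
      funext z
      rcases hB01 z with h | h <;> simp [h]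
    rw [e4]
    have h5 : ex (gg ι) w B ≤ pb := by rw [hB]; exact hpb
    have h6 : ex (gg ι) w (fun z => (Y z ^ 2) ^ 2) ≤ (11 * G) ^ 2 := by
      have h7 : ex (gg ι) w (fun z => (Y z ^ 2) ^ 2) ≤ 121 * ex (gg ι) w (fun z => W z ^ 2) := by
        rw [← ex_cmul]
        refine ex_mono hw (bsq (bsq bY)) (bcm _ (bsq bW)) fun z => ?_
        calc (Y z ^ 2) ^ 2 ≤ (11 * W z) ^ 2 := pow_le_pow_left₀ (sq_nonneg _) (hY2 z) 2
          _ = _ := by ring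
      nlinarith
    have h8 : √(ex (gg ι) w (fun z => (Y z ^ 2) ^ 2)) ≤ 11 * G := by
      rw [← Real.sqrt_sq (show 0 ≤ 11 * G by positivity)]
      exact Real.sqrt_le_sqrt h6
    calc _ ≤ √pb * (11 * G) := mul_le_mul (Real.sqrt_le_sqrt h5) h8 (Real.sqrt_nonneg _)
          (Real.sqrt_nonneg _)
      _ = _ := by ring
  have hAq : A ≤ q1 := by
    have e5 : ex (gg ι) w (fun z => Y z ^ 2) = q1 + ex (gg ι) w (fun z => B z * Y z ^ 2) := by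
      rw [hq1, ← ex_add hw (bg.mul (bsq bY)) (bB.mul (bsq bY))]
      congr 1
      funext z
      rw [hg]
      ring
    linarith
  have hAA : A * √A ≤ q1 * √q1 :=
    mul_le_mul hAq (Real.sqrt_le_sqrt hAq) (Real.sqrt_nonneg _) (hA0.trans hAq)
  have hlow : c ^ 2 / 4 * ex (gg ι) w (fun z => g z * Y z ^ 3) ≤
      ex (gg ι) w (fun z => Y z ^ 3 * kap z ^ 2) := by
    rw [← ex_cmul]
    refine ex_mono hw (bcm _ (bg.mul bY3)) (bY3.mul (bsq bkap)) fun z => ?_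
    have h6 : 0 ≤ Y z ^ 3 := pow_nonneg (hY0 z) 3
    rw [hg]
    show c ^ 2 / 4 * ((1 - B z) * Y z ^ 3) ≤ _
    by_cases h : -c / 2 < kap z
    · have h7 : B z = 1 := by rw [hB]; simp [h]
      rw [h7]
      have h8 : 0 ≤ Y z ^ 3 * kap z ^ 2 := mul_nonneg h6 (sq_nonneg _)
      linarith
    · have h7 : B z = 0 := by rw [hB]; simp [h]
      rw [h7]
      have h8 : c ^ 2 / 4 ≤ kap z ^ 2 := by nlinarith [not_lt.1 h]
      have h9 := mul_le_mul_of_nonneg_right h8 h6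
      linarith
  exact (mul_le_mul_of_nonneg_left (hAA.trans hcube) (by positivity)).trans hlow

/-- the means of the products -/
lemma mom_ex {w : (ι → ℝ) → ℝ} (hw : Wt (gg ι) w) {Y W dl r : (ι → ℝ) → ℝ} (bY : BM Y)
    (hY0 : ∀ z, 0 ≤ Y z) (bW : BM W) (br : BM r) (bdl : BM dl)
    (hdl0 : ∀ z, 0 ≤ dl z) (hY2 : ∀ z, Y z ^ 2 ≤ 11 * W z)
    (hdY : ∀ z, (dl z + Y z) ^ 2 ≤ 106 * W z)
    (hdl : dl = fun z => 3 / 2 * (τ * r z) + 4 * η ^ 2 * Y z) (hτ : 0 ≤ τ)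
    {G rk : ℝ} (hG0 : 0 ≤ G)
    (hW2 : ex (gg ι) w (fun z => W z ^ 2) ≤ G ^ 2)
    (hrk : ex (gg ι) w (fun z => r z ^ 2) ≤ rk) :
    ex (gg ι) w (fun z => dl z * (19208 * (8 * W z) + 162 * Y z ^ 2)) ≤
      155446 * ((3 / 2 * (τ * √rk) + 4 * η ^ 2 * √(ex (gg ι) w (fun z => Y z ^ 2))) * G) ∧
    ex (gg ι) w (fun z => Y z ^ 3) ≤ 11 * (√(ex (gg ι) w (fun z => Y z ^ 2)) * G) ∧
    ex (gg ι) w (fun z => Y z * (dl z + Y z) ^ 2) ≤
      106 * (√(ex (gg ι) w (fun z => Y z ^ 2)) * G) := by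
  have hWG : √(ex (gg ι) w (fun z => W z ^ 2)) ≤ G := by
    rw [← Real.sqrt_sq hG0]
    exact Real.sqrt_le_sqrt hW2
  set h2 := ex (gg ι) w (fun z => Y z ^ 2) with hh2
  have hYW : ex (gg ι) w (fun z => Y z * W z) ≤ √h2 * G := by
    refine (le_abs_self _).trans ((abs_ex_mul_le hw bY bW).trans ?_)
    exact mul_le_mul_of_nonneg_left hWG (Real.sqrt_nonneg _)
  have hRW : ex (gg ι) w (fun z => r z * W z) ≤ √rk * G := by
    refine (le_abs_self _).trans ((abs_ex_mul_le hw br bW).trans ?_)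
    exact mul_le_mul (Real.sqrt_le_sqrt hrk) hWG (Real.sqrt_nonneg _) (Real.sqrt_nonneg _)
  have hdW : ex (gg ι) w (fun z => dl z * W z) ≤
      (3 / 2 * (τ * √rk) + 4 * η ^ 2 * √h2) * G := by
    have e3 : (fun z => dl z * W z) = fun z => (3 / 2 * τ) * (r z * W z) +
        (4 * η ^ 2) * (Y z * W z) := by
      funext z
      rw [hdl]
      ring
    rw [e3, ex_add hw (bcm _ (br.mul bW)) (bcm _ (bY.mul bW)), ex_cmul, ex_cmul]
    have h3 := mul_le_mul_of_nonneg_left hRW (show 0 ≤ 3 / 2 * τ by positivity)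
    have h4 := mul_le_mul_of_nonneg_left hYW (show 0 ≤ 4 * η ^ 2 by positivity)
    calc _ ≤ 3 / 2 * τ * (√rk * G) + 4 * η ^ 2 * (√h2 * G) := add_le_add h3 h4
      _ = _ := by ring
  refine ⟨?_, ?_, ?_⟩
  · refine le_trans ?_ (mul_le_mul_of_nonneg_left hdW (by norm_num))
    rw [← ex_cmul]
    refine ex_mono hw (bdl.mul ((bcm _ (bcm 8 bW)).add (bcm _ (bsq bY))))
      (bcm _ (bdl.mul bW)) fun z => ?_
    have h5 := mul_le_mul_of_nonneg_left (show 19208 * (8 * W z) + 162 * Y z ^ 2 ≤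
      155446 * W z by linarith [hY2 z]) (hdl0 z)
    linarith
  · refine le_trans ?_ (mul_le_mul_of_nonneg_left hYW (by norm_num))
    rw [← ex_cmul]
    refine ex_mono hw (bm_cube bY) (bcm _ (bY.mul bW)) fun z => ?_
    have h5 := mul_le_mul_of_nonneg_left (hY2 z) (hY0 z)
    calc Y z ^ 3 = Y z * Y z ^ 2 := by ring
      _ ≤ Y z * (11 * W z) := h5
      _ = _ := by ring
  · refine le_trans ?_ (mul_le_mul_of_nonneg_left hYW (by norm_num))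
    rw [← ex_cmul]
    refine ex_mono hw (bY.mul (bsq (bdl.add bY))) (bcm _ (bY.mul bW)) fun z => ?_
    have h5 := mul_le_mul_of_nonneg_left (hdY z) (hY0 z)
    linarith

/-- **The near end inequality**: general system; `C3` bounds the error of the row equation, `pb`
the bad event of the fourth cumulant, `G` the fourth moment, `rk` the rank defect. -/
theorem ne_gen (hG : GM m E M0) (hx0 : 0 ≤ x) (hx1 : x ≤ 1) (hη : 0 ≤ η) (hη1 : η ≤ 1 / 2)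
    (hb0 : 0 ≤ b0) (hxb : x * b0 ≤ 1 / 4) (hkp : 0 < kp) (hτ : 0 ≤ τ) (hv : 0 ≤ v)
    (hKR : Disjoint K R) (hK : K ⊆ K') (hR : R ⊆ K')
    (hs : ∀ j, Bd (σ j)) (hs0 : Bd s0) (hs1 : ∀ ω, s0 ω ^ 2 = 1) (ha : Bd a)
    (haη : ∀ ω, |a ω - 1| ≤ η)
    (cf : (ι → ℝ) → ι → ℝ)
    (hY : ∀ z ω, YS R (cf z) E ω = kp * (s0 ω * (τ * ms S (Mg m E x K a σ) σ z ω + v)))
    (hc : ∀ z, ∑ e ∈ R, cf z e ^ 2 = kp ^ 2 * Yf S (Mg m E x K a σ) τ v z)
    (hb : ∀ ω, ∑ e ∈ R, E e ω ^ 2 ≤ b0 ^ 2)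
    {C3 c pb G rk A : ℝ}
    (hC3 : ex (gg ι) (Zxm m 1 E x) (fun z => cx (gg ι) K (Zxm m 1 E x) (fun y =>
        (cx (gg ι) K' (Zxm m 1 E x) (avm m 1 E (fun ω => a ω * s0 ω)) y -
          lc R (cf z) y) ^ 2) z) ≤ C3)
    (hc0 : 0 ≤ c)
    (hpb : ex (gg ι) (Zxm m 1 E x)
      (fun z => if -c / 2 < H355.kapF m 1 E x K s0 z then 1 else 0) ≤ pb)
    (hG0 : 0 ≤ G)
    (hG4 : 2 * τ ^ 4 * ex (gg ι) (Zxm m 1 E x) (Q4g m E x K σ S) + 2 * v ^ 4 ≤ G ^ 2)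
    (hrk : ex (gg ι) (Zxm m 1 E x) (RKg m E x K σ S) ≤ rk)
    (hA0 : 0 ≤ A)
    (hA : A ≤ ex (gg ι) (Zxm m 1 E x) (fun z => Yf S (Mg m E x K a σ) τ v z ^ 2) -
      11 * G * √pb) :
    c ^ 2 / 4 * (A * √A) ≤ 160 * C3 +
      784 * 155446 * ((3 / 2 * (τ * √rk) + 4 * η ^ 2 *
        √(ex (gg ι) (Zxm m 1 E x) (fun z => Yf S (Mg m E x K a σ) τ v z ^ 2))) * G) +
      (44 * (48 * η + 28 * x) ^ 2 + 1696 * (kp ^ 2 * (x * (48 * b0 ^ 2 + 6)) ^ 2)) *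
        (√(ex (gg ι) (Zxm m 1 E x) (fun z => Yf S (Mg m E x K a σ) τ v z ^ 2)) * G) := by
  set w := Zxm m 1 E x with hwd
  have hw : Wt (gg ι) w := hG.wt 1 x
  have hAv := av_gm hG 1
  set M := Mg m E x K a σ with hMdef
  have hM : ∀ j, BM (M j) := bm_Mg hG x K ha hs
  have hMd : ∀ j, H646.Dep K (M j) := fun j => dep_cx K
  set Y := Yf S M τ v with hYdef
  have bY : BM Y := bm_Y (S := S) hAv hs hM τ v
  have hY0 : ∀ z, 0 ≤ Y z := fun z => Y_nonneg hτ hv z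
  have bR : BM (RKg m E x K σ S) := bm_RKg hG x K hs S
  have bRs : BM fun z => √(RKg m E x K σ S z) := bm_sqrt bR
  have bQ : BM (Q4g m E x K σ S) := bm_Q4g hG x K hs S
  have bQs : BM fun z => √(Q4g m E x K σ S z) := bm_sqrt bQ
  obtain ⟨W, hW⟩ : ∃ W : (ι → ℝ) → ℝ, W = fun z => τ ^ 2 * √(Q4g m E x K σ S z) + v ^ 2 :=
    ⟨_, rfl⟩
  have bW : BM W := by rw [hW]; exact (bcm _ bQs).add (BM.const _)
  have hW0 : ∀ z, 0 ≤ W z := fun z => by rw [hW]; positivity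
  obtain ⟨dl, hdl⟩ : ∃ dl : (ι → ℝ) → ℝ, dl = fun z =>
      3 / 2 * (τ * √(RKg m E x K σ S z)) + 4 * η ^ 2 * Y z := ⟨_, rfl⟩
  have bdl : BM dl := by rw [hdl]; exact (bcm _ (bcm _ bRs)).add (bcm _ bY)
  have hdl0 : ∀ z, 0 ≤ dl z := fun z => by
    rw [hdl]
    have := hY0 z
    positivity
  have hY2 : ∀ z, Y z ^ 2 ≤ 11 * W z := fun z => by
    rw [hW]
    exact y2_le hG hη hη1 hτ hv x K ha hs haη S z
  have hW2 : ex (gg ι) w (fun z => W z ^ 2) ≤ G ^ 2 := by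
    rw [hW]
    exact (exW2 hG x K hs S τ v).trans hG4
  have hdY : ∀ z, (dl z + Y z) ^ 2 ≤ 106 * W z := fun z => by
    have h7 : √(RKg m E x K σ S z) ^ 2 ≤ 4 * √(Q4g m E x K σ S z) := by
      rw [Real.sq_sqrt (RKg_nonneg z S)]
      exact RKg_le hG x K hs S z
    have h8 := hY2 z
    rw [hdl, hW]
    rw [hW] at h8
    exact dlY_sq hη hη1 hτ (Real.sqrt_nonneg _) (hY0 z) h7 h8
  have hrk' : ex (gg ι) w (fun z => √(RKg m E x K σ S z) ^ 2) ≤ rk := by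
    have e2 : (fun z => √(RKg m E x K σ S z) ^ 2) = RKg m E x K σ S := by
      funext z
      exact Real.sq_sqrt (RKg_nonneg z S)
    rw [e2]
    exact hrk
  obtain ⟨t2, t3, t4⟩ := mom_ex (τ := τ) (η := η) hw bY hY0 bW bRs bdl hdl0 hY2 hdY hdl hτ hG0
    hW2 hrk'
  have hbes := bes_ex (K := K) (K' := K') (R := R) (M := M) (T := S) (s := σ) hG hx0 hx1 hη
    (by linarith) hb0 hxb hkp hτ hv hKR hK hR hs hs0 hs1 ha haη hM hMd cf hY hc hb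
    (dl := dl) (x4 := fun z => 8 * W z) bdl (bcm 8 bW) hdl0
    (fun z => mul_nonneg (by norm_num) (hW0 z))
    (fun z => by rw [hdl]; exact hdl_of hG hη hη1 hτ hv x K ha hs haη S z)
    (fun z => by rw [hW]; exact hx4_of hG hτ hv x K a hs S z)
  have bkap : BM (H355.kapF m 1 E x K s0) := hw.bm_cx K (H355.bm_kf hG 1 hs0)
  have hgood := good_ex hw bY hY0 bW bkap hY2 hc0 hpb hG0 hW2 hA0 hA
  have hkk : (fun z => Y z ^ 3 * H355.kapF m 1 E x K s0 z ^ 2) = fun z => Y z ^ 3 *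
      cx (gg ι) K w (fun y => k0 (avm m 1 E s0 y)) z ^ 2 := rfl
  rw [hkk] at hgood
  rw [← hwd] at hbes
  set h2 := ex (gg ι) w (fun z => Y z ^ 2) with hh2
  have h11 := mul_le_mul_of_nonneg_left t3 (show 0 ≤ 4 * (48 * η + 28 * x) ^ 2 by positivity)
  have h12 := mul_le_mul_of_nonneg_left t4
    (show 0 ≤ 16 * (kp ^ 2 * (x * (48 * b0 ^ 2 + 6)) ^ 2) by positivity)
  have h14 := mul_le_mul_of_nonneg_left t2 (show (0 : ℝ) ≤ 784 by norm_num)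
  have h15 := mul_le_mul_of_nonneg_left hC3 (show (0 : ℝ) ≤ 160 by norm_num)
  refine (hgood.trans hbes).trans ?_
  have e6 : 4 * ((48 * η + 28 * x) ^ 2 * ex (gg ι) w (fun z => Y z ^ 3)) =
      4 * (48 * η + 28 * x) ^ 2 * ex (gg ι) w (fun z => Y z ^ 3) := by ring
  have e7 : 16 * (kp ^ 2 * (x * (48 * b0 ^ 2 + 6)) ^ 2 *
      ex (gg ι) w (fun z => Y z * (dl z + Y z) ^ 2)) =
      16 * (kp ^ 2 * (x * (48 * b0 ^ 2 + 6)) ^ 2) *
        ex (gg ι) w (fun z => Y z * (dl z + Y z) ^ 2) := by ring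
  rw [e6, e7]
  linarith

end Vale.Agent.P146.H585
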