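import Vale.Agent.P146.H585.NeU
import Vale.Agent.P146.H646.XrU

/-!
The near end inequality in the ensemble `U` in normalised letters.
-/

open MeasureTheory ProbabilityTheory Filter Topology

namespace Vale.Agent.P146.H585.U

open Vale.Agent.P157.Lv Vale.Agent.P146.H196 Vale.Agent.P146.H646 Vale.Agent.P146.H161
  Vale.Agent.P146.H615 Vale.Agent.P146.H586 Vale.Agent.P146.H463
  Vale.Agent.P146.H475 Vale.Agent.P146.H816 Vale.Agent.P146.H325
  Vale.Agent.P146.H347 Vale.Agent.P146.H347.U Vale.Agent.P146.H281.U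

set_option linter.unusedSectionVars false

/-- the normalised error of the row equation: `rho = n / #S`, `q = ex Q`, `Im = inc / #S`,
`dd`, `df` the relative errors of the two linear identities, `X` the response number. -/
noncomputable def C3q (b kp t v x η rho q Im dd df cS X st h2 rk : ℝ) : ℝ :=
  (rho - (b * kp) ^ 2 * t) * q + Im +
    2 * kp * (b ^ 2 * t * (dd * √q + √X * √(2 * cS ^ 2 + 2 * st)) + v * df) +
    x * kp ^ 2 * (2 * h2 + 2 * (3 / 2 * (b ^ 2 * t * (√rk * √h2)) + 4 * η ^ 2 * h2))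

/-- the right side of the near end inequality in normalised letters -/
noncomputable def neQ (C3 b t kp x η b0 h2 rk G : ℝ) : ℝ :=
  160 * C3 + 784 * 155446 * ((3 / 2 * (b ^ 2 * t * √rk) + 4 * η ^ 2 * √h2) * G) +
    (44 * (48 * η + 28 * x) ^ 2 + 1696 * (kp ^ 2 * (x * (48 * b0 ^ 2 + 6)) ^ 2)) * (√h2 * G)

/-- the passage to normalised letters -/
theorem neR_le_neQ {b kp t v x η b0 n s q Q inc I D Df df cS X st h2 rk rkt G dd : ℝ}
    (hn : 0 < n) (hs : 0 < s) (hkp : 0 ≤ kp) (ht : 0 ≤ t) (hv : 0 ≤ v) (hx : 0 ≤ x)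
    (hG : 0 ≤ G) (hQ : Q = n * q) (hI : inc ≤ I)
    (hD : D ≤ n * (dd * √q + √X * √(2 * cS ^ 2 + 2 * st))) (hDf : Df ≤ df)
    (hrk : rkt ≤ n ^ 2 * rk) :
    neR (C3n kp (b ^ 2 / n * t) v x η s Q inc h2 rkt D Df) kp (b ^ 2 / n * t) x η b0 h2 rkt G ≤
      neQ (C3q b kp t v x η (n / s) q (I / s) dd df cS X st h2 rk) b t kp x η b0 h2 rk G := by
  have hτ : 0 ≤ b ^ 2 / n * t := mul_nonneg (div_nonneg (sq_nonneg _) hn.le) ht
  have hr : √rkt ≤ n * √rk := by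
    rw [← Real.sqrt_sq hn.le, ← Real.sqrt_mul (sq_nonneg _)]
    exact Real.sqrt_le_sqrt hrk
  have h1 : b ^ 2 / n * t * √rkt ≤ b ^ 2 * t * √rk := by
    calc b ^ 2 / n * t * √rkt ≤ b ^ 2 / n * t * (n * √rk) := mul_le_mul_of_nonneg_left hr hτ
      _ = _ := by field_simp
  have h2' : b ^ 2 / n * t * D ≤
      b ^ 2 * t * (dd * √q + √X * √(2 * cS ^ 2 + 2 * st)) := by
    calc b ^ 2 / n * t * D ≤ b ^ 2 / n * t * (n * (dd * √q + √X * √(2 * cS ^ 2 + 2 * st))) :=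
          mul_le_mul_of_nonneg_left hD hτ
      _ = _ := by field_simp
  have h3 : v * Df ≤ v * df := mul_le_mul_of_nonneg_left hDf hv
  have h4 : inc / s ≤ I / s := div_le_div_of_nonneg_right hI hs.le
  have h5 : (b ^ 2 / n * t * √rkt) * √h2 ≤ (b ^ 2 * t * √rk) * √h2 :=
    mul_le_mul_of_nonneg_right h1 (Real.sqrt_nonneg _)
  have h6 : (b ^ 2 / n * t * √rkt) * G ≤ (b ^ 2 * t * √rk) * G :=
    mul_le_mul_of_nonneg_right h1 hG
  have h7 : (Q + inc) / s - kp ^ 2 * (b ^ 2 / n * t * Q + v) ≤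
      (n / s - (b * kp) ^ 2 * t) * q + I / s := by
    have e1 : (Q + inc) / s - kp ^ 2 * (b ^ 2 / n * t * Q + v) =
        (n / s - (b * kp) ^ 2 * t) * q + inc / s - kp ^ 2 * v := by
      rw [hQ]
      field_simp
      ring
    rw [e1]
    have : 0 ≤ kp ^ 2 * v := mul_nonneg (sq_nonneg _) hv
    linarith
  have h8 : 2 * kp * (b ^ 2 / n * t * D + v * Df) ≤
      2 * kp * (b ^ 2 * t * (dd * √q + √X * √(2 * cS ^ 2 + 2 * st)) + v * df) :=
    mul_le_mul_of_nonneg_left (add_le_add h2' h3) (by positivity)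
  have h9 : x * kp ^ 2 * (2 * h2 + 2 * (3 / 2 * (b ^ 2 / n * t * (√rkt * √h2)) +
      4 * η ^ 2 * h2)) ≤
      x * kp ^ 2 * (2 * h2 + 2 * (3 / 2 * (b ^ 2 * t * (√rk * √h2)) + 4 * η ^ 2 * h2)) := by
    refine mul_le_mul_of_nonneg_left ?_ (by positivity)
    nlinarith
  unfold neR neQ C3n C3q
  nlinarith

variable {n : ℕ} {LB LF : Type} [Fintype LB]
  [DecidableEq LB] [Fintype LF] [DecidableEq LF] {Gt : Type} [Fintype Gt] [DecidableEq Gt]

/-- **The near end inequality in `U`, normalised letters**, `S1` = all sites, `#S = n - m`. -/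
theorem ne_Un {lam c : Gt → ℝ} (h : ∀ g, 0 < lam g) (b : ℝ) (cB : LB → ℝ) (cF : LF → ℝ)
    {a : LF → (Gt → ℝ) → ℝ} {η : ℝ} (hA : AmU a η) (hη1 : η ≤ 1 / 2) {g0 : Gt}
    {Lm : Finset LF} (hM : Mods a η g0 Lm)
    {x : ℝ} (hx0 : 0 ≤ x) (hx : x < 1) {s2 : ℝ} (hs2 : ∑ l ∈ Lm, cF l ^ 2 = s2)
    (hs : 0 < s2) {r0 kp : ℝ} (hkp : kp = 1 - (1 - x) * r0)
    (hc : c g0 = s2 * n * kp) (hk : 0 < kp)
    {S : Finset (Fin n)} (hSn : S.Nonempty) {i0 : Fin n} (hi : i0 ∉ S)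
    (BL : Finset LB) (FL : Finset LF)
    {P : Finset LF} (hP : ∀ l ∈ P, ∀ θ, a l θ = 1) {l0 : LF} (hl0 : l0 ∈ P)
    (hc0 : cF l0 ≠ 0) (hlF : l0 ∉ FL)
    {b2 : ℝ} (hb2 : 0 < b2) (hxK : x ≤ H355.cK b2 / 4)
    (hb : b ^ 2 * ∑ l, cB l ^ 2 + (1 + η) ^ 2 * ∑ l, cF l ^ 2 ≤ b2)
    {b0 : ℝ} (hb0 : 0 ≤ b0) (hxb : x * b0 ≤ 1 / 4) (hbb : b2 ≤ b0 ^ 2)
    {t v : ℝ} (ht : t = ∑ l ∈ BL, cB l ^ 2) (hv : v = ∑ l ∈ FL ∩ P, cF l ^ 2)
    {q I cc cS X rk h2 g4 G A : ℝ}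
    (hq : QsU n (nuG lam η c) b cB cF a x (Kset S BL FL) (fun θ => al η (θ g0)) S = n * q)
    (hI : icU n (nuG lam η c) b cB cF a x (Kset S BL FL) (Kset (insert i0 S) BL FL)
      (fun θ => al η (θ g0)) S ≤ I)
    (hcc0 : 0 ≤ cc) (hcc : R2U n (nuG lam η c) b cB cF a x (Kset Finset.univ BL FL)
      Finset.univ ≤ (n * cc) ^ 2)
    (hcS0 : 0 ≤ cS) (hcS : R2U n (nuG lam η c) b cB cF a x (Kset S BL FL) S ≤ (n * cS) ^ 2)
    (hX : X2U n (nuG lam η c) b cB cF a x (Kset S BL FL) (fun θ => al η (θ g0)) S ≤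
      (n : ℝ) ^ 2 * X)
    (hrk : rkU n (nuG lam η c) b cB cF a x (Kset S BL FL) S ≤ (n : ℝ) ^ 2 * rk)
    (hh2 : Y2U n (nuG lam η c) b cB cF a x (Kset S BL FL) (fun θ => al η (θ g0)) S
      (b ^ 2 / n * t) v = h2)
    (hG0 : 0 ≤ G)
    (hq4 : q4U n (nuG lam η c) b cB cF a x (Kset S BL FL) S ≤ (n : ℝ) ^ 4 * g4)
    (hG4 : 2 * (b ^ 2 * t) ^ 4 * g4 + 2 * v ^ 4 ≤ G ^ 2)
    (hA0 : 0 ≤ A)
    (hA' : A ≤ h2 -
      11 * G * √(32 / H355.cK b2 * (1 / √(Sᶜ.card : ℝ) + (1 / (|cF l0| * √n) +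
        2 * η * √(∑ l ∈ Pᶜ, cF l ^ 2) / √(∑ l ∈ P, cF l ^ 2))))) :
    H355.cK b2 ^ 2 / 4 * (A * √A) ≤
      neQ (C3q b kp t v x η (n / S.card) q (I / S.card)
        (√(8 * (1 + η) ^ 2 * cc / (Sᶜ.card : ℝ)) + lam g0 / (s2 * n) * √cS +
          (|r0| + 1) * (1 + η) * √(stk n (nuG lam η c) b cB cF a η x g0))
        (kp * η + lam g0 / (s2 * n) +
          (|r0| + 1) * (1 + η) * stk n (nuG lam η c) b cB cF a η x g0)
        cS X (stk n (nuG lam η c) b cB cF a η x g0) h2 rk) b t kp x η b0 h2 rk G := by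
  have hη := hA.nn
  have hnp : 0 < n := lt_of_le_of_lt (Nat.zero_le _) i0.2
  have hn : (0 : ℝ) < n := by exact_mod_cast hnp
  have hsc : (0 : ℝ) < S.card := by exact_mod_cast hSn.card_pos
  have ht0 : 0 ≤ t := by rw [ht]; exact Finset.sum_nonneg fun _ _ => sq_nonneg _
  have hv0 : 0 ≤ v := by rw [hv]; exact Finset.sum_nonneg fun _ _ => sq_nonneg _
  have hne : (Finset.univ \ S).Nonempty := ⟨i0, by simp [hi]⟩
  have hcomp : Finset.univ \ S = Sᶜ := by rw [Finset.compl_eq_univ_sdiff]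
  have hgg : 0 ≤ lam g0 / (s2 * n) := div_nonneg (h g0).le (by positivity)
  have hst0 : 0 ≤ stk n (nuG lam η c) b cB cF a η x g0 := by
    have hν := finite_nuG h hη c
    have h0 := nuG_ne h hη c
    have hG := gmU (n := n) b cB cF η hν h0 hA
    have hw := wtU (n := n) (LB := LB) b cB cF hν h0 hA x
    unfold stk
    have h1 : Bm fun w : (Gt → ℝ) × Xs n => 1 - ins η (w.1 g0) :=
      (Bm.const 1).sub (bm_insU η g0)
    refine ex_nonneg hw fun z => ?_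
    refine (av_gm hG 1).nonneg h1 (fun ω => ?_) z
    have h3 := ins_le η (ω.1 g0)
    show 0 ≤ 1 - ins η (ω.1 g0)
    linarith
  have key := ne_U (n := n) (c := c) h b cB cF hA hη1 hM hx0 hx (by rw [hs2]; exact hs) (r0 := r0)
    (by rw [hs2, ← hkp]; exact hc) (by rw [← hkp]; exact hk) (S1 := Finset.univ)
    (Finset.subset_univ S) hSn hi hne BL FL hP hl0 hc0 hlF hb2 hxK hb hb0 hxb hbb
    (τ := b ^ 2 / n * t) (v := v) (by rw [ht]) hv (G := G) (A := A) hG0 ?_ hA0 ?_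
  · refine key.trans ?_
    rw [hs2, ← hkp, hh2, hcomp]
    refine neR_le_neQ hn hsc hk.le ht0 hv0 hx0 hG0 hq hI ?_ ?_ hrk
    · have hvr : (∑ l ∈ Lm.filter (· ∈ FL), cF l ^ 2) / (s2 * n) ≤ 1 / n := by
        have h1 : ∑ l ∈ Lm.filter (· ∈ FL), cF l ^ 2 ≤ s2 := by
          rw [← hs2]
          exact Finset.sum_le_sum_of_subset_of_nonneg (Finset.filter_subset _ _)
            fun _ _ _ => sq_nonneg _
        rw [div_le_div_iff₀ (by positivity) hn]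
        nlinarith
      have hD0 : (0 : ℝ) < (Sᶜ.card : ℝ) := by
        rw [hcomp] at hne
        exact_mod_cast hne.card_pos
      refine errD_norm hn hη hgg hvr hD0 (Nat.cast_nonneg _) ?_ hst0 hcc0 hcc hcS0 hcS hX
        hq.le
      have := Finset.card_le_univ S
      rw [Fintype.card_fin] at this
      exact_mod_cast this
    · rw [abs_of_pos hk]
  · refine le_trans ?_ hG4
    have h1 : 2 * (b ^ 2 / n * t) ^ 4 * q4U n (nuG lam η c) b cB cF a x (Kset S BL FL) S ≤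
        2 * (b ^ 2 / n * t) ^ 4 * ((n : ℝ) ^ 4 * g4) :=
      mul_le_mul_of_nonneg_left hq4 (by positivity)
    have e1 : 2 * (b ^ 2 / n * t) ^ 4 * ((n : ℝ) ^ 4 * g4) = 2 * (b ^ 2 * t) ^ 4 * g4 := by
      field_simp
    linarith
  · rw [hh2]
    exact hA'

end Vale.Agent.P146.H585.U
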