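import Vale.Agent.P146.H161.RowInst
import Vale.Agent.P146.H281.U1

set_option linter.all false

/-!
The averaged row identity (`hstar` of `H615.easm`) in the ensemble `U` of `H281.U1`: frozen
coordinates `Kset S BL FL` (modulated field levels allowed in `FL`), row `Rw i0 S BL FL` of the
site `i0 ∉ S`, direction `H161.cfr i0 b cB cP kp M z` where `cP l = cF l` on the plain levels and
`cP l = 0` on the modulated levels.
-/

open MeasureTheory ProbabilityTheory Filter Topology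

namespace Vale.Agent.P146.H585.U

open Vale.Agent.P157.Lv Vale.Agent.P146.H196 Vale.Agent.P146.H646 Vale.Agent.P146.H615
  Vale.Agent.P146.H347 Vale.Agent.P146.H475 Vale.Agent.P146.H816 Vale.Agent.P146.H325
  Vale.Agent.P146.H161 Vale.Agent.P146.H281.U

variable {Θ : Type} [MeasurableSpace Θ] {n : ℕ} {LB LF : Type}

/-- the plain coefficients of the levels: `cF` on the levels of `P`, `0` on the others -/
noncomputable def cPl [DecidableEq LF] (P : Finset LF) (cF : LF → ℝ) (l : LF) : ℝ :=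
  if l ∈ P then cF l else 0

lemma cPl_mul [DecidableEq LF] {P : Finset LF} {cF : LF → ℝ} {a : LF → Θ → ℝ}
    (h : ∀ l ∈ P, ∀ θ, a l θ = 1) (l : LF) (θ : Θ) :
    cPl P cF l * (cF l * a l θ) = cPl P cF l ^ 2 := by
  unfold cPl
  split_ifs with hl
  · rw [h l hl θ]; ring
  · ring

lemma sum_cPl [DecidableEq LF] (P FL : Finset LF) (cF : LF → ℝ) :
    ∑ l ∈ FL, cPl P cF l ^ 2 = ∑ l ∈ FL ∩ P, cF l ^ 2 := by
  rw [← Finset.filter_mem_eq_inter, Finset.sum_filter]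
  refine Finset.sum_congr rfl fun l _ => ?_
  unfold cPl
  split_ifs <;> ring

/-- the energy of a bond of the row, with the site of the row first -/
lemma SU_row {i : Fin n} (b : ℝ) (cB : LB → ℝ) (cF : LF → ℝ) (a : LF → Θ → ℝ) {p : Pair n}
    (hp : p ∈ row i) (l : LB) (w : Θ × Xs n) :
    SU b cB cF a (bd LF p l) w = b / √n * cB l * (sp w.2 i * sp w.2 (oth i p)) := by
  rw [SU_bd, SkS_oth hp]
  rfl

section inst

variable [Fintype LB] [DecidableEq LB] [Fintype LF] [DecidableEq LF]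
  (b : ℝ) (cB : LB → ℝ) (cF cP : LF → ℝ) (a : LF → Θ → ℝ) {i0 : Fin n} {S : Finset (Fin n)}
  (BL : Finset LB) (FL : Finset LF)

/-- the energy of the direction of the row -/
theorem ys_cfrU (hi : i0 ∉ S) (hP : ∀ l ∈ FL, ∀ θ, cP l * (cF l * a l θ) = cP l ^ 2) (kp : ℝ)
    (M : Fin n → (Co n LB LF → ℝ) → ℝ) (z : Co n LB LF → ℝ) (ω : Θ × Xs n) :
    YS (Rw i0 S BL FL) (cfr i0 b cB cP kp M z) (SU b cB cF a) ω =
      kp * (sp ω.2 i0 * (b ^ 2 / n * (∑ l ∈ BL, cB l ^ 2) *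
        ms S M (fun j (ω : Θ × Xs n) => sp ω.2 j) z ω + ∑ l ∈ FL, cP l ^ 2)) := by
  unfold YS
  rw [sum_Rw' hi _ (fun j l => kp * sp ω.2 i0 * (b ^ 2 / n * cB l ^ 2 * (M j z * sp ω.2 j)))]
  · rw [show kp * (sp ω.2 i0 * (b ^ 2 / n * (∑ l ∈ BL, cB l ^ 2) *
        ms S M (fun j (ω : Θ × Xs n) => sp ω.2 j) z ω + ∑ l ∈ FL, cP l ^ 2)) =
        kp * sp ω.2 i0 * (b ^ 2 / n * (∑ l ∈ BL, cB l ^ 2) *
        ms S M (fun j (ω : Θ × Xs n) => sp ω.2 j) z ω) +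
        kp * sp ω.2 i0 * ∑ l ∈ FL, cP l ^ 2 by ring]
    congr 1
    · unfold ms
      rw [Finset.mul_sum, Finset.mul_sum]
      refine Finset.sum_congr rfl fun j _ => ?_
      rw [Finset.mul_sum, Finset.sum_mul, Finset.mul_sum]
    · rw [Finset.mul_sum]
      refine Finset.sum_congr rfl fun l hl => ?_
      rw [cfr_fd, SU_fd]
      linear_combination kp * sp ω.2 i0 * hP l hl ω.1
  · intro p hp _ l _
    rw [cfr_bd, SU_row b cB cF a hp, ← div_sqrt_sq]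
    ring

/-- **The hypothesis `hstar` of `H615.easm` in the ensemble `U`.** -/
theorem hstar_ku {ν : Measure Θ} (hν : IsFiniteMeasure ν) (h0 : ν ≠ 0) {η : ℝ} (hA : AmU a η)
    (x : ℝ) (hi : i0 ∉ S) (hP : ∀ l ∈ FL, ∀ θ, cP l * (cF l * a l θ) = cP l ^ 2)
    (M : Fin n → (Co n LB LF → ℝ) → ℝ) (hM : ∀ j, BM (M j))
    (hMd : ∀ j, H646.Dep (Kset S BL FL) (M j)) (kp : ℝ) {φ : (Co n LB LF → ℝ) → ℝ}
    (hφ : H646.Dep (Kset S BL FL) φ) (hφb : BM φ) {τ v : ℝ}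
    (hτ : τ = b ^ 2 / n * ∑ l ∈ BL, cB l ^ 2) (hv : v = ∑ l ∈ FL, cP l ^ 2)
    {w : (Co n LB LF → ℝ) → ℝ} (hw : w = Zxm (muU ν n) 1 (SU b cB cF a) x)
    {av : (Θ × Xs n → ℝ) → (Co n LB LF → ℝ) → ℝ}
    (hav : av = avm (muU ν n) 1 (SU b cB cF a))
    {r : Θ → ℝ} (hr : Measurable r) {Cr : ℝ} (hrb : ∀ θ, |r θ| ≤ Cr)
    {am s0 : Θ × Xs n → ℝ} (ha : am = fun ω => r ω.1) (hs0 : s0 = fun ω => sp ω.2 i0)
    {σ : Fin n → Θ × Xs n → ℝ} (hσ : σ = fun j ω => sp ω.2 j) :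
    ex (g1 _) w (fun z => φ z * cx (g1 _) (Kset (insert i0 S) BL FL) w
        (av (fun ω => am ω * s0 ω)) z ^ 2) =
      2 * kp * (τ * ex (g1 _) w (fun z => φ z * ∑ j ∈ S, M j z * Th av x am s0 σ j z) +
        v * ex (g1 _) w (fun z => φ z * Tf av x am s0 z)) -
      kp ^ 2 * ex (g1 _) w (fun z => φ z * Yf S M τ v z) -
      x * kp ^ 2 * (ex (g1 _) w (fun z => φ z * Pt av S M σ τ v z) -
        (1 - x) * ex (g1 _) w (fun z => φ z * Rt av S M s0 σ τ v z ^ 2)) +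
      ex (g1 _) w (fun z => φ z * cx (g1 _) (Kset S BL FL) w (fun y =>
        (cx (g1 _) (Kset (insert i0 S) BL FL) w (av (fun ω => am ω * s0 ω)) y -
          lc (Rw i0 S BL FL) (cfr i0 b cB cP kp M z) y) ^ 2) z) := by
  subst hτ hv hw hav ha hs0 hσ
  have hR : Rw i0 S BL FL ⊆ Kset (insert i0 S) BL FL := by
    rw [← Rw_union hi]
    exact Finset.subset_union_right
  have hKK : Kset S BL FL ⊆ Kset (LB := LB) (LF := LF) (insert i0 S) BL FL :=
    Kset_mono (Finset.subset_insert i0 S) (Finset.Subset.refl _) (Finset.Subset.refl _)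
  have hms : ∀ j : Fin n, Measurable fun ω : Θ × Xs n => sp ω.2 j := fun j => by
    have := msx n
    exact (Measurable.of_discrete (f := fun σ : Xs n => sp σ j)).comp measurable_snd
  have h1 : ∀ j : Fin n, Bd fun ω : Θ × Xs n => sp ω.2 j := fun j =>
    ⟨hms j, 1, zero_le_one, fun ω => Vale.Agent.P146.H281.U.abs_sp ω.2 j⟩
  have h2 : Bd fun ω : Θ × Xs n => r ω.1 := ⟨hr.comp measurable_fst, max Cr 0,
    le_max_right _ _, fun ω => (hrb ω.1).trans (le_max_left _ _)⟩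
  have h3 : ∀ ω : Θ × Xs n, (fun ω : Θ × Xs n => sp ω.2 i0) ω ^ 2 = 1 := fun ω => by
    show sp ω.2 i0 ^ 2 = 1
    rw [sq]
    exact sp_mul_self ω.2 i0
  have h4 := hstar_abs (T := S) (M := M) (s := fun j (ω : Θ × Xs n) => sp ω.2 j)
    (s0 := fun ω : Θ × Xs n => sp ω.2 i0) (a := fun ω : Θ × Xs n => r ω.1)
    (gmU (n := n) b cB cF η hν h0 hA) x (Rw_disj hi) hKK hR
    h1 (h1 i0) h3 h2 hM hMd (b ^ 2 / n * ∑ l ∈ BL, cB l ^ 2) (∑ l ∈ FL, cP l ^ 2) kp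
    (cfr i0 b cB cP kp M)
    (fun z ω => ys_cfrU b cB cF cP a BL FL hi hP kp M z ω)
    (fun z => sq_cfr b cB cP BL FL hi kp M z) hφ hφb
  exact h4

end inst

end Vale.Agent.P146.H585.U
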